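import Vale.Agent.P058.Kite.Filler

/-!
One column of the construction: an affine family through two given vectors, whose switched
version has the same distances and differs only by the involution or not at all.
-/

namespace Vale.Agent.P058.Kite

open Finset

/-- The affine function with the given coefficients. -/
def ev (A : Fin 3 → ℝ) (z : ℂ) : ℝ := A 0 + A 1 * z.re + A 2 * z.im

/-- The odd coefficient functions. -/
noncomputable def xiC (a b : ℝ) : Fin 4 → Fin 3 → ℝ :=
  ![![-a / (1 - a), 1 / (1 - a), 0], ![a / (a + 1), -1 / (a + 1), 0], ![0, 0, 1 / b],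
    ![0, 0, -1 / b]]

/-- The even coefficient functions. -/
noncomputable def etaC (b : ℝ) : Fin 4 → Fin 3 → ℝ :=
  ![![1 / 2, 1 / 2, 0], ![1 / 2, -1 / 2, 0], ![1 / 2, 0, 1 / (2 * b)], ![1 / 2, 0, -1 / (2 * b)]]

/-- The weights of the first vector. -/
noncomputable def coA (a b : ℝ) (l : Fin 4) (i : Fin 3) : ℝ := (etaC b l i + xiC a b l i) / 2

/-- The weights of the second vector. -/
noncomputable def coB (a b : ℝ) (l : Fin 4) (i : Fin 3) : ℝ := (etaC b l i - xiC a b l i) / 2

/-- The vertex opposite to `l` on its line. -/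
def partner : Fin 4 → Fin 4 := ![1, 0, 3, 2]

lemma partner_ne (l : Fin 4) : partner l ≠ l := by fin_cases l <;> simp [partner]

section
variable {a b : ℝ} (ha : a ≠ 1) (ha' : a ≠ -1) (hb : b ≠ 0)
include ha ha' hb

lemma ev_self (l : Fin 4) :
    ev (coA a b l) (vert a b l) = 1 ∧ ev (coB a b l) (vert a b l) = 0 := by
  have h1 : (1 : ℝ) - a ≠ 0 := sub_ne_zero.mpr (Ne.symm ha)
  have h2 : a + 1 ≠ 0 := fun h => ha' (by linarith)
  fin_cases l <;> simp [ev, coA, coB, etaC, xiC, vert] <;> constructor <;> field_simp <;> ring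

lemma ev_partner (l : Fin 4) :
    ev (coB a b l) (vert a b (partner l)) = -ev (coA a b l) (vert a b (partner l)) := by
  have h1 : (1 : ℝ) - a ≠ 0 := sub_ne_zero.mpr (Ne.symm ha)
  have h2 : a + 1 ≠ 0 := fun h => ha' (by linarith)
  fin_cases l <;> simp [ev, coA, coB, etaC, xiC, vert, partner] <;> field_simp <;> ring

lemma ev_other {l c : Fin 4} (h : c ≠ l) (h' : c ≠ partner l) :
    ev (coB a b l) (vert a b c) = ev (coA a b l) (vert a b c) := by
  have h1 : (1 : ℝ) - a ≠ 0 := sub_ne_zero.mpr (Ne.symm ha)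
  have h2 : a + 1 ≠ 0 := fun h => ha' (by linarith)
  fin_cases l <;> fin_cases c <;> simp [partner] at h h' <;>
    simp [ev, coA, coB, etaC, xiC, vert] <;> field_simp <;> ring

end

lemma qn_lin {ι : Type} [Fintype ι] {v w : ι → ℂ} (h : qn v = qn w) (s t : ℝ) :
    qn (s • v + t • w) = qn (t • v + s • w) := by
  have key : qn (s • v + t • w) - qn (t • v + s • w) = (s ^ 2 - t ^ 2) * (qn v - qn w) := by
    simp only [qn, ← sum_sub_distrib, mul_sum]
    refine sum_congr rfl fun i _ => ?_
    simp [Complex.normSq_apply]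
    ring
  rw [h, sub_self, mul_zero, sub_eq_zero] at key
  exact key

lemma qn_comb_le {ι : Type} [Fintype ι] (v w : ι → ℂ) (s t : ℝ) :
    qn (s • v + t • w) ≤ 2 * s ^ 2 * qn v + 2 * t ^ 2 * qn w := by
  simp only [qn, mul_sum, ← sum_add_distrib]
  refine sum_le_sum fun i _ => ?_
  simp [Complex.normSq_apply]
  nlinarith [sq_nonneg (s * (v i).re - t * (w i).re), sq_nonneg (s * (v i).im - t * (w i).im)]

lemma qn_four {ι : Type} [Fintype ι] (c p q : ι → ℂ) (z : ℂ) :
    qn (c + z.re • p + z.im • q) + qn (c + (-z).re • p + (-z).im • q)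
      + qn (c + (Complex.I * z).re • p + (Complex.I * z).im • q)
      + qn (c + (-Complex.I * z).re • p + (-Complex.I * z).im • q)
      = 4 * qn c + 2 * Complex.normSq z * (qn p + qn q) := by
  simp only [qn, mul_sum, ← sum_add_distrib]
  refine sum_congr rfl fun i _ => ?_
  simp [Complex.normSq_apply]
  ring

lemma ev_sq_le (A : Fin 3 → ℝ) {z : ℂ} (hz : Complex.normSq z = 1) :
    ev A z ^ 2 ≤ 3 * ∑ i, A i ^ 2 := by
  rw [Complex.normSq_apply] at hz
  simp only [ev, Fin.sum_univ_three]
  nlinarith [sq_nonneg (A 0 - A 1 * z.re), sq_nonneg (A 0 - A 2 * z.im),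
    sq_nonneg (A 1 * z.re - A 2 * z.im), sq_nonneg (A 1 * z.im), sq_nonneg (A 2 * z.re)]

/-- A bound on all the weights. -/
noncomputable def coBound (a b : ℝ) : ℝ :=
  ∑ l, ∑ i, (coA a b l i ^ 2 + coB a b l i ^ 2)

lemma coBound_nonneg (a b : ℝ) : 0 ≤ coBound a b := by unfold coBound; positivity

lemma row_le_coBound (a b : ℝ) (l : Fin 4) :
    ∑ i, coA a b l i ^ 2 + ∑ i, coB a b l i ^ 2 ≤ coBound a b := by
  rw [← sum_add_distrib]
  exact single_le_sum (f := fun m => ∑ i, (coA a b m i ^ 2 + coB a b m i ^ 2))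
    (fun m _ => by positivity) (mem_univ l)

namespace Sys

variable (S : Sys) (a b : ℝ)

/-- The value of the column of `l` through `u` and `u'` at the point `z`. -/
noncomputable def col (u u' : S.ι → ℂ) (l : Fin 4) (z : ℂ) : S.ι → ℂ :=
  S.pp u + (ev (coA a b l) z • S.pm u + ev (coB a b l) z • S.pm u')

/-- The switched column. -/
noncomputable def colS (u u' : S.ι → ℂ) (l : Fin 4) (z : ℂ) : S.ι → ℂ :=
  S.pp u + (ev (coB a b l) z • S.pm u + ev (coA a b l) z • S.pm u')

/-- The constant part of a column. -/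
noncomputable def col0 (u u' : S.ι → ℂ) (l : Fin 4) : S.ι → ℂ :=
  S.pp u + (coA a b l 0 • S.pm u + coB a b l 0 • S.pm u')

/-- The two linear parts of a column. -/
noncomputable def col1 (u u' : S.ι → ℂ) (l : Fin 4) (i : Fin 3) : S.ι → ℂ :=
  coA a b l i • S.pm u + coB a b l i • S.pm u'

lemma col_eq (u u' : S.ι → ℂ) (l : Fin 4) (z : ℂ) :
    S.col a b u u' l z
      = S.col0 a b u u' l + z.re • S.col1 a b u u' l 1 + z.im • S.col1 a b u u' l 2 := by
  simp only [col, col0, col1, ev]
  module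

/-- The scale that one column contributes. -/
noncomputable def colScale (u u' : S.ι → ℂ) (l : Fin 4) : ℝ :=
  2 * (qn (S.col1 a b u u' l 1) + qn (S.col1 a b u u' l 2))

lemma col_four (u u' : S.ι → ℂ) (l : Fin 4) {z : ℂ} (hz : Complex.normSq z = 1) :
    qn (S.col a b u u' l z) + (qn (S.col a b u u' l (-z)) + qn (S.col a b u u' l (Complex.I * z))
      + qn (S.col a b u u' l (-Complex.I * z)))
      = 4 * qn (S.col0 a b u u' l) + S.colScale a b u u' l := by
  have h := qn_four (S.col0 a b u u' l) (S.col1 a b u u' l 1) (S.col1 a b u u' l 2) z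
  rw [hz] at h
  simp only [← col_eq] at h
  rw [colScale]
  linarith

lemma col_four_sub (u u' : S.ι → ℂ) (l : Fin 4) (z z' : ℂ) :
    qn (S.col a b u u' l z - S.col a b u u' l z')
      + (qn (S.col a b u u' l (-z) - S.col a b u u' l (-z'))
        + qn (S.col a b u u' l (Complex.I * z) - S.col a b u u' l (Complex.I * z'))
        + qn (S.col a b u u' l (-Complex.I * z) - S.col a b u u' l (-Complex.I * z')))
      = Complex.normSq (z - z') * S.colScale a b u u' l := by
  have h := qn_four 0 (S.col1 a b u u' l 1) (S.col1 a b u u' l 2) (z - z')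
  have e : ∀ x y : ℂ, S.col a b u u' l x - S.col a b u u' l y
      = 0 + (x - y).re • S.col1 a b u u' l 1 + (x - y).im • S.col1 a b u u' l 2 := by
    intro x y
    simp only [col_eq, Complex.sub_re, Complex.sub_im]
    module
  rw [show qn (0 : S.ι → ℂ) = 0 by simp [qn]] at h
  rw [e, e, e, e, colScale, show -z - -z' = -(z - z') by ring, ← mul_sub, ← mul_sub]
  linarith

lemma pp_pp (v : S.ι → ℂ) : S.pp (S.pp v) = S.pp v := by
  rw [pp, act_pp, ← two_smul ℝ (S.pp v), smul_smul]; norm_num

lemma pm_pp (v : S.ι → ℂ) : S.pm (S.pp v) = 0 := by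
  rw [pm, act_pp, sub_self, smul_zero]

lemma pp_pm (v : S.ι → ℂ) : S.pp (S.pm v) = 0 := by
  rw [pp, act_pm, add_neg_cancel, smul_zero]

lemma pm_pm (v : S.ι → ℂ) : S.pm (S.pm v) = S.pm v := by
  rw [pm, act_pm, sub_neg_eq_add, ← two_smul ℝ (S.pm v), smul_smul]; norm_num

lemma pp_split (u v w : S.ι → ℂ) (s t : ℝ) :
    S.pp (S.pp u + (s • S.pm v + t • S.pm w)) = S.pp u := by
  conv_lhs => rw [pp]
  simp only [map_add, map_smul, act_pp, act_pm]
  module

lemma pm_split (u v w : S.ι → ℂ) (s t : ℝ) :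
    S.pm (S.pp u + (s • S.pm v + t • S.pm w)) = s • S.pm v + t • S.pm w := by
  conv_lhs => rw [pm]
  simp only [map_add, map_smul, act_pp, act_pm]
  module

lemma qn_split (u v w : S.ι → ℂ) (s t : ℝ) :
    qn (S.pp u + (s • S.pm v + t • S.pm w)) = qn (S.pp u) + qn (s • S.pm v + t • S.pm w) := by
  rw [← S.qn_pp_pm (S.pp u + _), pp_split, pm_split]

/-- The hypotheses on the two vectors of a column. -/
structure Pair (u u' : S.ι → ℂ) (δ : ℝ) : Prop where
  pp_eq : S.pp u' = S.pp u
  qn_eq : qn u' = qn u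
  small : qn (S.pm u) ≤ δ

variable {S a b} {u u' : S.ι → ℂ} {δ : ℝ} (h : S.Pair u u' δ)
include h

lemma Pair.pm_eq : qn (S.pm u') = qn (S.pm u) := by
  have h1 := S.qn_pp_pm u
  have h2 := S.qn_pp_pm u'
  rw [h.pp_eq, h.qn_eq] at h2
  linarith

lemma col_small (l : Fin 4) {z : ℂ} (hz : Complex.normSq z = 1) :
    qn (S.pm (S.col a b u u' l z)) ≤ 6 * coBound a b * δ := by
  rw [col, pm_split]
  refine (qn_comb_le _ _ _ _).trans ?_
  rw [h.pm_eq]
  have h1 := ev_sq_le (coA a b l) hz
  have h2 := ev_sq_le (coB a b l) hz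
  have h3 := row_le_coBound a b l
  have h4 := qn_nonneg (S.pm u)
  nlinarith [mul_nonneg (coBound_nonneg a b) (sub_nonneg.mpr h.small)]

lemma colScale_le (l : Fin 4) : S.colScale a b u u' l ≤ 8 * coBound a b * δ := by
  have h1 := qn_comb_le (S.pm u) (S.pm u') (coA a b l 1) (coB a b l 1)
  have h2 := qn_comb_le (S.pm u) (S.pm u') (coA a b l 2) (coB a b l 2)
  have h3 := row_le_coBound a b l
  rw [h.pm_eq] at h1 h2
  simp only [Fin.sum_univ_three] at h3
  have h4 := qn_nonneg (S.pm u)
  simp only [colScale, col1]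
  nlinarith [mul_nonneg (coBound_nonneg a b) (sub_nonneg.mpr h.small), sq_nonneg (coA a b l 0),
    sq_nonneg (coB a b l 0)]

variable (ha : a ≠ 1) (ha' : a ≠ -1) (hb : b ≠ 0)
include ha ha' hb

omit h in
lemma col_self (l : Fin 4) : S.col a b u u' l (vert a b l) = u := by
  obtain ⟨h1, h2⟩ := ev_self ha ha' hb l
  rw [col, h1, h2, one_smul, zero_smul, add_zero, pp_add_pm]

lemma colS_self (l : Fin 4) : S.colS a b u u' l (vert a b l) = u' := by
  obtain ⟨h1, h2⟩ := ev_self ha ha' hb l
  rw [colS, h1, h2, one_smul, zero_smul, zero_add, ← h.pp_eq, pp_add_pm]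

omit h in
lemma colS_partner (l : Fin 4) :
    S.act S.ν (S.col a b u u' l (vert a b (partner l)))
      = S.colS a b u u' l (vert a b (partner l)) := by
  simp only [col, colS, ev_partner ha ha' hb, map_add, map_smul, act_pp, act_pm]
  module

omit h in
lemma colS_other {l c : Fin 4} (h1 : c ≠ l) (h2 : c ≠ partner l) :
    S.col a b u u' l (vert a b c) = S.colS a b u u' l (vert a b c) := by
  simp only [col, colS, ev_other ha ha' hb h1 h2]

omit ha ha' hb in
lemma colS_dist (l : Fin 4) (z z' : ℂ) :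
    qn (S.colS a b u u' l z - S.colS a b u u' l z')
      = qn (S.col a b u u' l z - S.col a b u u' l z') := by
  have e1 : S.colS a b u u' l z - S.colS a b u u' l z'
      = (ev (coB a b l) z - ev (coB a b l) z') • S.pm u
        + (ev (coA a b l) z - ev (coA a b l) z') • S.pm u' := by
    simp only [colS]; module
  have e2 : S.col a b u u' l z - S.col a b u u' l z'
      = (ev (coA a b l) z - ev (coA a b l) z') • S.pm u
        + (ev (coB a b l) z - ev (coB a b l) z') • S.pm u' := by
    simp only [col]; module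
  rw [e1, e2]
  exact qn_lin h.pm_eq.symm _ _

end Sys

end Vale.Agent.P058.Kite
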