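import Mathlib

/-!
Definitions: Ramsey sets, subtransitive sets and the kite.
-/

namespace Vale.Agent.P058.Kite

/-- Every colouring with finitely many colours of some Euclidean space is constant on a
congruent copy of `A`. -/
def IsRamsey {d : ℕ} (A : Finset (EuclideanSpace ℝ (Fin d))) : Prop :=
  ∀ r : ℕ, 2 ≤ r → ∃ D : ℕ, 1 ≤ D ∧ ∀ c : EuclideanSpace ℝ (Fin D) → Fin r,
    ∃ f : EuclideanSpace ℝ (Fin d) → EuclideanSpace ℝ (Fin D),
      (∀ p ∈ A, ∀ q ∈ A, dist (f p) (f q) = dist p q) ∧ ∀ p ∈ A, ∀ q ∈ A, c (f p) = c (f q)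

/-- The isometries of the space that map `X` onto itself act transitively on `X`. -/
def IsTransitiveSet {n : ℕ} (X : Finset (EuclideanSpace ℝ (Fin n))) : Prop :=
  ∀ p ∈ X, ∀ q ∈ X, ∃ g : EuclideanSpace ℝ (Fin n) ≃ᵢ EuclideanSpace ℝ (Fin n),
    g '' (X : Set (EuclideanSpace ℝ (Fin n))) = X ∧ g p = q

/-- `A` is congruent to a subset of a finite transitive set. -/
def IsSubtransitive {d : ℕ} (A : Finset (EuclideanSpace ℝ (Fin d))) : Prop :=
  ∃ (n : ℕ) (X : Finset (EuclideanSpace ℝ (Fin n))), IsTransitiveSet X ∧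
    ∃ f : EuclideanSpace ℝ (Fin d) → EuclideanSpace ℝ (Fin n),
      (∀ p ∈ A, f p ∈ X) ∧ ∀ p ∈ A, ∀ q ∈ A, dist (f p) (f q) = dist p q

open Classical in
/-- The kite with vertices `(1,0)`, `(-1,0)`, `(a, √(1-a²))`, `(a, -√(1-a²))`. -/
noncomputable def kite (a : ℝ) : Finset (EuclideanSpace ℝ (Fin 2)) :=
  {!₂[1, 0], !₂[-1, 0], !₂[a, Real.sqrt (1 - a ^ 2)], !₂[a, -Real.sqrt (1 - a ^ 2)]}

end Vale.Agent.P058.Kite
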