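import Vale.Agent.P058.Kite.Sys

/-!
The filler: four points of a circle that a finite 2-group moves, up to a small antifixed part,
to one common point.
-/

namespace Vale.Agent.P058.Kite

open scoped ComplexConjugate

/-- The vertices of the kite as complex numbers. -/
noncomputable def vert (a b : ℝ) : Fin 4 → ℂ :=
  ![1, -1, (a : ℂ) + b * Complex.I, (a : ℂ) - b * Complex.I]

lemma normSq_vert {a b : ℝ} (hab : a ^ 2 + b ^ 2 = 1) (l : Fin 4) :
    Complex.normSq (vert a b l) = 1 := by
  fin_cases l <;> simp [vert, Complex.normSq_apply] <;> linarith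

/-- Conjugation-rotations of the plane indexed by a dihedral group, about the axis `κ`. -/
noncomputable def diagFun {N : ℕ} [NeZero N] (κ : ℂ) : DihedralGroup N → ℂ → ℂ
  | .r i, z => ZMod.stdAddChar i * z
  | .sr i, z => κ * conj (ZMod.stdAddChar i * z)

/-- Real rotations and reflections of a pair of complex numbers. -/
noncomputable def mixFun {M : ℕ} [NeZero M] : DihedralGroup M → (Fin 2 → ℂ) → Fin 2 → ℂ
  | .r i, v => ![((ZMod.stdAddChar i : ℂ).re : ℂ) * v 0 - ((ZMod.stdAddChar i : ℂ).im : ℂ) * v 1,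
      ((ZMod.stdAddChar i : ℂ).im : ℂ) * v 0 + ((ZMod.stdAddChar i : ℂ).re : ℂ) * v 1]
  | .sr i, v => ![((ZMod.stdAddChar i : ℂ).re : ℂ) * v 0 - ((ZMod.stdAddChar i : ℂ).im : ℂ) * v 1,
      -(((ZMod.stdAddChar i : ℂ).im : ℂ) * v 0 + ((ZMod.stdAddChar i : ℂ).re : ℂ) * v 1)]

lemma normSq_char {N : ℕ} [NeZero N] (i : ZMod N) :
    Complex.normSq (ZMod.stdAddChar i : ℂ) = 1 := by
  rw [ZMod.stdAddChar_apply, Complex.normSq_eq_norm_sq, Circle.norm_coe, one_pow]

lemma conj_char {N : ℕ} [NeZero N] (i : ZMod N) :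
    conj (ZMod.stdAddChar i : ℂ) = ZMod.stdAddChar (-i) := by
  rw [ZMod.stdAddChar_apply, ZMod.stdAddChar_apply, AddChar.map_neg_eq_inv, Circle.coe_inv_eq_conj]

lemma normSq_mix {N : ℕ} [NeZero N] (i : ZMod N) (x y : ℂ) :
    Complex.normSq (((ZMod.stdAddChar i : ℂ).re : ℂ) * x - ((ZMod.stdAddChar i : ℂ).im : ℂ) * y) +
      Complex.normSq (((ZMod.stdAddChar i : ℂ).im : ℂ) * x + ((ZMod.stdAddChar i : ℂ).re : ℂ) * y)
      = Complex.normSq x + Complex.normSq y := by
  have h := normSq_char i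
  simp only [Complex.normSq_apply] at h
  simp [Complex.normSq_apply]
  linear_combination (x.re * x.re + x.im * x.im + y.re * y.re + y.im * y.im) * h

lemma diagFun_one {N : ℕ} [NeZero N] (κ z : ℂ) : diagFun κ (1 : DihedralGroup N) z = z := by
  show ZMod.stdAddChar (0 : ZMod N) * z = z
  simp

lemma mixFun_one {M : ℕ} [NeZero M] (v : Fin 2 → ℂ) : mixFun (1 : DihedralGroup M) v = v := by
  show mixFun (DihedralGroup.r (0 : ZMod M)) v = v
  funext i
  fin_cases i <;> simp [mixFun]

/-- `diagFun` as a homomorphism. -/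
noncomputable def diagHom {N : ℕ} [NeZero N] (κ : ℂ) (hκ : Complex.normSq κ = 1) :
    DihedralGroup N →* Module.End ℝ ℂ where
  toFun d :=
    { toFun := diagFun κ d
      map_add' := fun x y => by cases d <;> simp [diagFun, mul_add]
      map_smul' := fun c x => by
        cases d <;> simp [diagFun, Complex.real_smul] <;> ring }
  map_one' := LinearMap.ext fun z => diagFun_one κ z
  map_mul' g h := LinearMap.ext fun z => by
    have hk : κ * conj κ = 1 := by rw [Complex.mul_conj, hκ]; simp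
    cases g <;> cases h <;>
      simp only [DihedralGroup.r_mul_r, DihedralGroup.r_mul_sr, DihedralGroup.sr_mul_r,
        DihedralGroup.sr_mul_sr, LinearMap.coe_mk, AddHom.coe_mk, Module.End.mul_apply,
        diagFun, sub_eq_add_neg, AddChar.map_add_eq_mul, map_mul, conj_char, neg_neg,
        Complex.conj_conj]
    · ring
    · ring
    · ring
    · rename_i i j
      linear_combination (-((ZMod.stdAddChar j : ℂ) * ZMod.stdAddChar (-i) * z)) * hk

/-- `mixFun` as a homomorphism. -/
noncomputable def mixHom {M : ℕ} [NeZero M] : DihedralGroup M →* Module.End ℝ (Fin 2 → ℂ) where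
  toFun d :=
    { toFun := mixFun d
      map_add' := fun x y => by
        cases d <;> funext i <;> fin_cases i <;> simp [mixFun] <;> ring
      map_smul' := fun c x => by
        cases d <;> funext i <;> fin_cases i <;> simp [mixFun, Complex.real_smul] <;> ring }
  map_one' := LinearMap.ext fun z => mixFun_one z
  map_mul' g h := LinearMap.ext fun z => funext fun i => by
    cases g <;> cases h <;> fin_cases i <;>
      simp [mixFun, sub_eq_add_neg, AddChar.map_add_eq_mul, ← conj_char] <;> ring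

/-- The symmetries of the filler. -/
noncomputable def fillSys (n m : ℕ) (κ : ℂ) (hκ : Complex.normSq κ = 1) : Sys where
  ι := Fin 2
  G := DihedralGroup (2 ^ n) × DihedralGroup (2 ^ m)
  isP := isPGroup_prod (isPGroup_of_card (n := n + 1) (by rw [DihedralGroup.nat_card, pow_succ']))
    (isPGroup_of_card (n := m + 1) (by rw [DihedralGroup.nat_card, pow_succ']))
  act :=
    { toFun := fun g => ((diagHom κ hκ g.1).compLeft (Fin 2)) ∘ₗ mixHom g.2
      map_one' := LinearMap.ext fun v => by simp; rfl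
      map_mul' := fun g h => LinearMap.ext fun v => funext fun i => by
        suffices hcomm : ∀ d e (w : Fin 2 → ℂ) j,
            mixHom (M := 2 ^ m) e (fun k => diagHom (N := 2 ^ n) κ hκ d (w k)) j
              = diagHom κ hκ d (mixHom e w j) by
          simp only [LinearMap.coe_comp, Function.comp_apply, Module.End.mul_apply, Prod.fst_mul,
            Prod.snd_mul, map_mul, LinearMap.compLeft_apply]
          exact congrArg _ (hcomm h.1 g.2 (mixHom h.2 v) i).symm
        intro d e w j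
        cases d <;> cases e <;> fin_cases j <;>
          simp [diagHom, mixHom, diagFun, mixFun] <;> ring }
  qact g v := by
    have h1 : ∀ (d : DihedralGroup (2 ^ n)) z,
        Complex.normSq (diagHom κ hκ d z) = Complex.normSq z := by
      intro d z
      cases d <;> simp [diagHom, diagFun, normSq_char, hκ]
    obtain ⟨d, e⟩ := g
    simp only [qn, Fin.sum_univ_two]
    show Complex.normSq (diagHom κ hκ d (mixHom e v 0))
      + Complex.normSq (diagHom κ hκ d (mixHom e v 1)) = _
    rw [h1, h1]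
    cases e <;>
      simp only [mixHom, mixFun, MonoidHom.coe_mk, OneHom.coe_mk, LinearMap.coe_mk, AddHom.coe_mk,
        Matrix.cons_val_zero, Matrix.cons_val_one, Complex.normSq_neg, normSq_mix]
  ν := (1, DihedralGroup.sr 0)
  νν := by simp

lemma fill_act {n m : ℕ} {κ : ℂ} (hκ : Complex.normSq κ = 1) (d : DihedralGroup (2 ^ n))
    (e : DihedralGroup (2 ^ m)) (v : Fin 2 → ℂ) (i : Fin 2) :
    (fillSys n m κ hκ).act (d, e) v i = diagFun κ d (mixFun e v i) := rfl

lemma fill_pp {n m : ℕ} {κ : ℂ} (hκ : Complex.normSq κ = 1) (v : Fin 2 → ℂ) :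
    (fillSys n m κ hκ).pp v = ![v 0, 0] := by
  have hν : ∀ i, (fillSys n m κ hκ).act (fillSys n m κ hκ).ν v i = ![v 0, -v 1] i := fun i => by
    show diagFun κ (1 : DihedralGroup (2 ^ n)) (mixFun (DihedralGroup.sr 0) v i) = _
    rw [diagFun_one]
    fin_cases i <;> simp [mixFun]
  funext i
  show (1 / 2 : ℝ) • (v i + (fillSys n m κ hκ).act (fillSys n m κ hκ).ν v i) = ![v 0, 0] i
  rw [hν]
  fin_cases i <;> simp
  ring

lemma fill_qn {n m : ℕ} {κ : ℂ} (hκ : Complex.normSq κ = 1) (v : Fin 2 → ℂ) :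
    qn (ι := (fillSys n m κ hκ).ι) v = Complex.normSq (v 0) + Complex.normSq (v 1) :=
  Fin.sum_univ_two _

lemma fill_qn_pm {n m : ℕ} {κ : ℂ} (hκ : Complex.normSq κ = 1) (v : Fin 2 → ℂ) :
    qn ((fillSys n m κ hκ).pm v) = Complex.normSq (v 1) := by
  have h := (fillSys n m κ hκ).qn_pp_pm v
  have e := congrArg qn (fill_pp (n := n) (m := m) hκ v)
  rw [fill_qn hκ v] at h
  have e' : qn (ι := (fillSys n m κ hκ).ι) ![v 0, 0] = Complex.normSq (v 0) :=
    (fill_qn hκ _).trans (by simp)
  linarith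

/-- Reaching the common first coordinate suffices. -/
lemma fill_near {n m : ℕ} {κ : ℂ} (hκ : Complex.normSq κ = 1) {c : ℝ} {z v₁ : ℂ} {ε : ℝ}
    (v : Fin 2 → ℂ) (d : DihedralGroup (2 ^ n)) (e : DihedralGroup (2 ^ m))
    (h0 : diagFun κ d (mixFun e v 0) = c)
    (hv : Complex.normSq (v 0) + Complex.normSq (v 1) = c ^ 2 * (1 + Complex.normSq z))
    (hε : c ^ 2 * Complex.normSq z ≤ ε) :
    (fillSys n m κ hκ).Near v ![(c : ℂ), v₁] ε := by
  let S := fillSys n m κ hκ
  let w : Fin 2 → ℂ := S.act (d, e) v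
  have hw : w 0 = c := h0
  refine ⟨(d, e), (fill_pp hκ _).trans (Eq.trans ?_ (fill_pp hκ _).symm), ?_⟩
  · exact congrArg (fun x => ![x, (0 : ℂ)]) hw
  · refine le_of_eq_of_le (fill_qn_pm hκ _) ?_
    have h := (fill_qn hκ w).symm.trans ((S.qact (d, e) v).trans (fill_qn hκ v))
    rw [hw, hv, Complex.normSq_ofReal] at h
    show Complex.normSq (w 1) ≤ ε
    nlinarith

lemma exists_small_angle (η : ℝ) (hη : 0 < η) :
    ∃ m : ℕ, 0 < Real.sin (2 * Real.pi / 2 ^ m) ∧
      1 - Real.cos (2 * Real.pi / 2 ^ m) ≤ η * Real.sin (2 * Real.pi / 2 ^ m) := by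
  obtain ⟨m, hm⟩ := pow_unbounded_of_one_lt (2 * Real.pi / min η 1) (one_lt_two (α := ℝ))
  refine ⟨m, ?_⟩
  set x := 2 * Real.pi / 2 ^ m with hx
  have hpi := Real.pi_pos
  have hx0 : 0 < x := by positivity
  have hxη : x < min η 1 := by
    rw [hx, div_lt_iff₀ (by positivity)]
    rw [div_lt_iff₀ (lt_min hη one_pos)] at hm
    linarith
  have hx1 : x < 1 := hxη.trans_le (min_le_right _ _)
  have hsin := Real.mul_le_sin hx0.le (by linarith [Real.pi_gt_three])
  have hcos := Real.one_sub_sq_div_two_le_cos (x := x)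
  have h4 : (1 : ℝ) / 2 ≤ 2 / Real.pi := by
    rw [div_le_div_iff₀ two_pos hpi]; linarith [Real.pi_lt_four]
  have hs : x / 2 ≤ Real.sin x := by
    have := mul_le_mul_of_nonneg_right h4 hx0.le
    linarith
  refine ⟨by linarith, ?_⟩
  calc 1 - Real.cos x ≤ x * (x / 2) := by linarith [hcos, show x * (x / 2) = x ^ 2 / 2 by ring]
    _ ≤ η * Real.sin x :=
      mul_le_mul (hxη.le.trans (min_le_left _ _)) hs (by positivity) hη.le

lemma exists_root_near (p : ℂ) (hp : Complex.normSq p = 1) (δ : ℝ) (hδ : 0 < δ) :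
    ∃ (n : ℕ) (k : ZMod (2 ^ (n + 1))), ‖(ZMod.stdAddChar k : ℂ) - p‖ ≤ δ := by
  obtain ⟨n, hn⟩ := pow_unbounded_of_one_lt (2 * Real.pi / δ) (one_lt_two (α := ℝ))
  set N : ℝ := 2 ^ (n + 1) with hN
  have hN0 : 0 < N := by positivity
  have hNδ : 2 * Real.pi / N ≤ δ := by
    rw [div_le_iff₀ hN0, hN, pow_succ]
    rw [div_lt_iff₀ hδ] at hn
    nlinarith [pow_pos (two_pos (α := ℝ)) n]
  set θ := Complex.arg p with hθ
  set k : ℤ := ⌊θ * N / (2 * Real.pi)⌋ with hk
  refine ⟨n, (k : ZMod (2 ^ (n + 1))), ?_⟩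
  set α : ℝ := 2 * Real.pi * k / N with hα
  have hpi := Real.pi_pos
  have hclose : |α - θ| ≤ 2 * Real.pi / N := by
    have h1 := Int.floor_le (θ * N / (2 * Real.pi))
    have h2 := Int.lt_floor_add_one (θ * N / (2 * Real.pi))
    rw [← hk] at h1 h2
    have e : α - θ = (2 * Real.pi / N) * ((k : ℝ) - θ * N / (2 * Real.pi)) := by
      rw [hα]; field_simp
    rw [e, abs_mul, abs_of_pos (by positivity : 0 < 2 * Real.pi / N)]
    exact mul_le_of_le_one_right (by positivity) (abs_le.mpr ⟨by linarith, by linarith⟩)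
  have hp1 : ‖p‖ = 1 := by
    rw [← pow_left_inj₀ (norm_nonneg p) zero_le_one two_ne_zero, ← Complex.normSq_eq_norm_sq, hp,
      one_pow]
  have hpe : Complex.exp (θ * Complex.I) = p := by
    have := Complex.norm_mul_exp_arg_mul_I p
    rwa [hp1, Complex.ofReal_one, one_mul] at this
  rw [ZMod.stdAddChar_coe, ← hpe]
  have harg : (2 * (Real.pi : ℂ) * Complex.I * k / ((2 ^ (n + 1) : ℕ) : ℂ))
      = Complex.I * ((α - θ : ℝ) : ℂ) + θ * Complex.I := by
    rw [hα, hN]; push_cast; ring
  rw [harg, Complex.exp_add, ← sub_one_mul, norm_mul, Complex.norm_exp_ofReal_mul_I, mul_one]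
  exact Real.norm_exp_I_mul_ofReal_sub_one_le.trans (hclose.trans hNδ)

/-- For every tolerance there is a filler system. -/
theorem exists_filler {a b : ℝ} (hab : a ^ 2 + b ^ 2 = 1) {ε : ℝ} (hε : 0 < ε) :
    ∃ S : Sys, ∀ e : ℝ, e ≤ 1 → ∃ (F : Fin 4 → S.ι → ℂ) (ref : S.ι → ℂ),
      (∀ l m, qn (F l - F m) = (1 - e) * Complex.normSq (vert a b l - vert a b m)) ∧
      (∀ l, qn (F l) = qn ref) ∧ (∀ l, S.Near (F l) ref (max (1 - e) 0 * ε)) ∧
      qn (S.pm ref) ≤ max (1 - e) 0 * ε := by
  set η := Real.sqrt ε / 2 with hη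
  have hη0 : 0 < η := by positivity
  obtain ⟨m, hv, hu⟩ := exists_small_angle η hη0
  set u := Real.cos (2 * Real.pi / 2 ^ m)
  set v := Real.sin (2 * Real.pi / 2 ^ m)
  set p : ℂ := (a : ℂ) + b * Complex.I with hp
  have hpn : Complex.normSq p = 1 := by simpa [vert] using normSq_vert hab 2
  obtain ⟨n, k, hk⟩ := exists_root_near p hpn (η * v) (mul_pos hη0 hv)
  set τ : ℂ := ZMod.stdAddChar k
  have hτn : Complex.normSq τ = 1 := normSq_char k
  set q := τ * conj p
  have hqn : Complex.normSq q = 1 := by simp [q, hτn, hpn]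
  have hq : ‖q - 1‖ ≤ η * v := by
    have : q - 1 = (τ - p) * conj p := by
      have := Complex.mul_conj p
      rw [hpn, Complex.ofReal_one] at this
      simp only [q]; linear_combination this
    rw [this, norm_mul, Complex.norm_conj]
    rw [Complex.normSq_eq_norm_sq] at hpn
    calc ‖τ - p‖ * ‖p‖ ≤ η * v * 1 := by
          exact mul_le_mul hk (by nlinarith [norm_nonneg p]) (norm_nonneg p) (by positivity)
      _ = η * v := mul_one _
  set z : ℂ := (conj q - (u : ℂ)) / (v : ℂ) with hz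
  have hzn : Complex.normSq z ≤ ε := by
    have h1 : ‖conj q - (u : ℂ)‖ ≤ 2 * η * v := by
      calc ‖conj q - (u : ℂ)‖ ≤ ‖conj q - 1‖ + ‖1 - (u : ℂ)‖ := norm_sub_le_norm_sub_add_norm_sub ..
        _ ≤ η * v + η * v := by
            gcongr
            · rw [← Complex.norm_conj, map_sub, Complex.conj_conj, map_one]; exact hq
            · rw [← Complex.ofReal_one, ← Complex.ofReal_sub, Complex.norm_real,
                Real.norm_of_nonneg (by linarith [Real.cos_le_one (2 * Real.pi / 2 ^ m)])]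
              exact hu
        _ = 2 * η * v := by ring
    have h2 : ‖z‖ ≤ Real.sqrt ε := by
      rw [hz, norm_div, Complex.norm_real, Real.norm_of_nonneg hv.le, div_le_iff₀ hv]
      calc ‖conj q - (u : ℂ)‖ ≤ 2 * η * v := h1
        _ = Real.sqrt ε * v := by rw [hη]; ring
    rw [Complex.normSq_eq_norm_sq, ← Real.sq_sqrt hε.le]
    exact pow_le_pow_left₀ (norm_nonneg z) h2 2
  refine ⟨fillSys (n + 1) m p hpn, fun e he => ?_⟩
  set c := Real.sqrt ((1 - e) / (1 + Complex.normSq z))
  have hz0 := Complex.normSq_nonneg z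
  have hc : c ^ 2 * (1 + Complex.normSq z) = 1 - e := by
    rw [Real.sq_sqrt (div_nonneg (by linarith) (by linarith)), div_mul_cancel₀]
    linarith
  have hcz : c ^ 2 * Complex.normSq z ≤ max (1 - e) 0 * ε := by
    rw [max_eq_left (by linarith : (0 : ℝ) ≤ 1 - e)]
    have : c ^ 2 ≤ 1 - e := by nlinarith [sq_nonneg c]
    exact mul_le_mul this hzn hz0 (by linarith)
  refine ⟨fun l => ![(c : ℂ) * vert a b l, (c : ℂ) * z * vert a b l], ![(c : ℂ), c * z],
    fun l l' => ?_, fun l => ?_, fun l => ?_, ?_⟩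
  · refine (fill_qn hpn (![(c : ℂ) * vert a b l, (c : ℂ) * z * vert a b l]
      - ![(c : ℂ) * vert a b l', (c : ℂ) * z * vert a b l'])).trans ?_
    rw [← hc]
    simp only [Pi.sub_apply, Matrix.cons_val_zero,
      Matrix.cons_val_one, ← mul_sub, Complex.normSq_mul, Complex.normSq_ofReal]
    ring
  · refine (fill_qn hpn _).trans (Eq.trans ?_ (fill_qn hpn _).symm)
    simp only [Matrix.cons_val_zero, Matrix.cons_val_one,
      Complex.normSq_mul, normSq_vert hab l]
    ring
  · have hv' : Complex.normSq ((c : ℂ) * vert a b l) + Complex.normSq ((c : ℂ) * z * vert a b l)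
        = c ^ 2 * (1 + Complex.normSq z) := by
      simp only [Complex.normSq_mul, normSq_vert hab l, Complex.normSq_ofReal]; ring
    fin_cases l
    · exact fill_near hpn _ 1 1 (by simp [diagFun_one, mixFun_one, vert])
        (by simpa [vert] using hv') hcz
    · refine fill_near hpn _ (DihedralGroup.r ((2 ^ n : ℤ) : ZMod (2 ^ (n + 1)))) 1 ?_
        (by simpa [vert] using hv') hcz
      have hneg : (ZMod.stdAddChar ((2 ^ n : ℤ) : ZMod (2 ^ (n + 1))) : ℂ) = -1 := by
        rw [ZMod.stdAddChar_coe]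
        convert Complex.exp_pi_mul_I using 2
        push_cast
        rw [pow_succ]; field_simp
      simp only [diagFun, hneg]
      simp [mixFun_one, vert]
    · refine fill_near hpn _ (DihedralGroup.sr 0) 1 ?_ (by simpa [vert] using hv') hcz
      simp only [diagFun]
      simp [mixFun_one, vert, ← hp]
      linear_combination (c : ℂ) * (by rw [Complex.mul_conj, hpn]; simp : p * conj p = 1)
    · refine fill_near hpn _ (DihedralGroup.r k) (DihedralGroup.r (-1 : ZMod (2 ^ m))) ?_
        (by simpa [vert] using hv') hcz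
      have hrot : (ZMod.stdAddChar (-1 : ZMod (2 ^ m)) : ℂ) = (u : ℂ) - v * Complex.I := by
        rw [show (-1 : ZMod (2 ^ m)) = ((-1 : ℤ) : ZMod (2 ^ m)) by simp, ZMod.stdAddChar_coe,
          show (2 * (Real.pi : ℂ) * Complex.I * ((-1 : ℤ) : ℂ) / ((2 ^ m : ℕ) : ℂ))
            = ((-(2 * Real.pi / 2 ^ m) : ℝ) : ℂ) * Complex.I by push_cast; ring,
          Complex.exp_mul_I, ← Complex.ofReal_cos, ← Complex.ofReal_sin, Real.cos_neg,
          Real.sin_neg, Complex.ofReal_neg]
        ring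
      have hp' : vert a b 3 = conj p := by simp [vert, hp, sub_eq_add_neg]
      have hqq : q * conj q = 1 := by rw [Complex.mul_conj, hqn]; simp
      have hvz : (v : ℂ) * z = conj q - u := mul_div_cancel₀ _ (Complex.ofReal_ne_zero.mpr hv.ne')
      simp only [diagFun, mixFun, hrot]
      show τ * _ = _
      simp [hp']
      linear_combination (τ * (c : ℂ) * conj p) * hvz + (c : ℂ) * hqq
  · refine le_of_eq_of_le (fill_qn_pm hpn _) ?_
    simpa [pow_two] using hcz

end Vale.Agent.P058.Kite
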