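import Vale.Agent.P058.Kite.Defs

/-!
Interfaces: symmetrisation of colourings by finite 2-groups, and non-subtransitivity of the kite.
-/

namespace Vale.Agent.P058.Kite

/-- For every number of colours there is a finite witness in a Euclidean space such that every
colouring of it has an isometric image of `F` on which the colour is constant on orbits. -/
def Symmetrisable (G F : Type) [Group G] [MulAction G F] [PseudoMetricSpace F] : Prop :=
  ∀ r : ℕ, ∃ (N : ℕ) (P : Finset (EuclideanSpace ℝ (Fin N))),
    ∀ C : EuclideanSpace ℝ (Fin N) → Fin r, ∃ i : F → EuclideanSpace ℝ (Fin N),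
      (∀ f, i f ∈ P) ∧ (∀ f f', dist (i f) (i f') = dist f f') ∧
        ∀ (g : G) (f : F), C (i (g • f)) = C (i f)

/-- Target: `Symmetrisable` holds for every finite 2-group acting by isometries. -/
def SymmetrisationTarget : Prop :=
  ∀ (G F : Type) [Group G] [Finite G] [MulAction G F] [PseudoMetricSpace F] [Finite F],
    IsPGroup 2 G → (∀ (g : G) (f f' : F), dist (g • f) (g • f') = dist f f') →
      (∃ (n : ℕ) (e : F → EuclideanSpace ℝ (Fin n)), ∀ f f', dist (e f) (e f') = dist f f') →
      Symmetrisable G F

/-- Target: the kite with a transcendental parameter is not subtransitive. -/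
def NotSubtransitiveTarget : Prop :=
  ∀ a : ℝ, Transcendental ℚ a → -1 < a → a < 1 → ¬ IsSubtransitive (kite a)

end Vale.Agent.P058.Kite
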