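import Vale.Agent.P058.Kite.Step
import Vale.Agent.P058.Kite.SymDefs

/-!
The kite is Ramsey.
-/

namespace Vale.Agent.P058.Kite

open Finset

/-- With no more colours than levels, some congruent copy of the kite is monochromatic, as soon
as the colour is constant on orbits. -/
lemma exists_mono {S : Sys} {a b : ℝ} {k : ℕ} :
    ∀ r (M : (Fin r → Fin 4) → S.ι → ℂ) (_ : Edges S a b r M)
      (χ : S.G → (Fin r → Fin 4) → Fin k), (∀ g g' w, χ g w = χ g' w) →
      ∀ T : Finset (Fin k), T.card ≤ r → (∀ g w, χ g w ∈ T) →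
      ∃ (γ : Fin 4 → S.G) (w : Fin 4 → Fin r → Fin 4),
        (∀ l m, qn (S.act (γ l) (M (w l)) - S.act (γ m) (M (w m)))
          = Complex.normSq (vert a b l - vert a b m)) ∧
        ∀ l m, χ (γ l) (w l) = χ (γ m) (w m)
  | 0, _, _, χ, _, T, hT, hmem => by
    have := hmem 1 (fun i => i.elim0)
    simp [card_eq_zero.mp (Nat.le_zero.mp hT)] at this
  | r + 1, M, hM, χ, hinv, T, hT, hmem => by
    by_cases h : ∃ i ∈ T, ∀ l, ∃ w, χ 1 (Fin.cons l w) = i
    · obtain ⟨i, -, hi⟩ := h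
      choose β hβ using hi
      obtain ⟨γ, hγ⟩ := hM.1 β
      exact ⟨γ, fun l => Fin.cons l (β l), hγ, fun l m => by
        rw [hinv (γ l) 1, hinv (γ m) 1, hβ, hβ]⟩
    · push Not at h
      obtain ⟨l, hl⟩ := h _ (hmem 1 fun _ => 0)
      obtain ⟨γ, w, h1, h2⟩ := exists_mono r (fun w => M (Fin.cons l w)) (hM.2 l)
        (fun g w => χ g (Fin.cons l w)) (fun g g' w => hinv g g' _)
        (T.erase (χ 1 fun _ => 0))
        (by rw [card_erase_of_mem (hmem 1 fun _ => 0)]; omega)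
        (fun g w => mem_erase.mpr ⟨(hinv g 1 _).trans_ne (hl w), hmem _ _⟩)
      exact ⟨γ, fun m => Fin.cons l (w m), h1, h2⟩

/-- The real coordinates of a vector of complex numbers. -/
noncomputable def toR {ι : Type} [Fintype ι] (v : ι → ℂ) :
    EuclideanSpace ℝ (Fin (Fintype.card (ι × Fin 2))) :=
  WithLp.toLp 2 fun k =>
    if ((Fintype.equivFin (ι × Fin 2)).symm k).2 = 0
    then (v ((Fintype.equivFin (ι × Fin 2)).symm k).1).re
    else (v ((Fintype.equivFin (ι × Fin 2)).symm k).1).im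

lemma dist_toR {ι : Type} [Fintype ι] (v w : ι → ℂ) : dist (toR v) (toR w) ^ 2 = qn (v - w) := by
  rw [EuclideanSpace.dist_sq_eq]
  simp only [toR, Real.dist_eq, sq_abs]
  refine ((Fintype.equivFin (ι × Fin 2)).symm.sum_comp
    (fun p => ((if p.2 = 0 then (v p.1).re else (v p.1).im)
      - (if p.2 = 0 then (w p.1).re else (w p.1).im)) ^ 2)).trans ?_
  rw [Fintype.sum_prod_type]
  refine sum_congr rfl fun i _ => ?_
  simp [Fin.sum_univ_two, Complex.normSq_apply, pow_two]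

/-- The vertices of the kite. -/
noncomputable def kitePt (a : ℝ) : Fin 4 → EuclideanSpace ℝ (Fin 2) :=
  ![!₂[1, 0], !₂[-1, 0], !₂[a, Real.sqrt (1 - a ^ 2)], !₂[a, -Real.sqrt (1 - a ^ 2)]]

lemma mem_kite {a : ℝ} {p : EuclideanSpace ℝ (Fin 2)} :
    p ∈ kite a ↔ ∃ l, kitePt a l = p := by
  simp [kite, kitePt, Fin.exists_fin_succ, eq_comm]

lemma dist_kitePt (a : ℝ) (l m : Fin 4) :
    dist (kitePt a l) (kitePt a m) ^ 2
      = Complex.normSq (vert a (Real.sqrt (1 - a ^ 2)) l - vert a (Real.sqrt (1 - a ^ 2)) m) := by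
  rw [EuclideanSpace.dist_sq_eq]
  fin_cases l <;> fin_cases m <;>
    simp [kitePt, vert, Fin.sum_univ_two, Complex.normSq_apply, Real.dist_eq, sq_abs] <;> ring

/-- Leaves moved by the group. -/
structure Orbit (S : Sys) (r : ℕ) where
  g : S.G
  w : Fin r → Fin 4

instance (S : Sys) (r : ℕ) : Finite (Orbit S r) :=
  Finite.of_equiv (S.G × (Fin r → Fin 4))
    ⟨fun p => ⟨p.1, p.2⟩, fun o => (o.g, o.w), fun _ => rfl, fun _ => rfl⟩

instance (S : Sys) (r : ℕ) : MulAction S.G (Orbit S r) where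
  smul g o := ⟨g * o.g, o.w⟩
  one_smul o := by show Orbit.mk (1 * o.g) o.w = o; rw [one_mul]
  mul_smul g h o := by
    show Orbit.mk (g * h * o.g) o.w = Orbit.mk (g * (h * o.g)) o.w
    rw [mul_assoc]

/-- If colourings can be symmetrised, the kite is Ramsey. -/
theorem kite_isRamsey_of (hsym : SymmetrisationTarget) {a : ℝ} (h0 : -1 < a) (h1 : a < 1) :
    IsRamsey (kite a) := by
  intro k hk
  set b := Real.sqrt (1 - a ^ 2) with hb
  have ha2 : 0 < 1 - a ^ 2 := by nlinarith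
  have hb0 : 0 < b := Real.sqrt_pos.mpr ha2
  have hab : a ^ 2 + b ^ 2 = 1 := by rw [hb, Real.sq_sqrt ha2.le]; ring
  obtain ⟨C⟩ := exists_cfg h1.ne h0.ne' hb0.ne' hab k one_pos
  let place : Orbit C.S k → EuclideanSpace ℝ (Fin (Fintype.card (C.S.ι × Fin 2))) := fun o =>
    toR (C.S.act o.g (C.M o.w))
  let _inst : PseudoMetricSpace (Orbit C.S k) := PseudoMetricSpace.induced place inferInstance
  have hiso : ∀ (g : C.S.G) (o o' : Orbit C.S k), dist (g • o) (g • o') = dist o o' := by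
    intro g o o'
    refine (pow_left_inj₀ dist_nonneg dist_nonneg two_ne_zero).mp ?_
    show dist (toR (C.S.act (g * o.g) (C.M o.w))) (toR (C.S.act (g * o'.g) (C.M o'.w))) ^ 2
      = dist (toR (C.S.act o.g (C.M o.w))) (toR (C.S.act o'.g (C.M o'.w))) ^ 2
    rw [dist_toR, dist_toR, ← Sys.act_act, ← Sys.act_act, ← map_sub, C.S.qact]
  obtain ⟨N, P, hP⟩ := hsym C.S.G (Orbit C.S k) C.S.isP hiso ⟨_, place, fun _ _ => rfl⟩ k
  have key : ∀ c : EuclideanSpace ℝ (Fin N) → Fin k, ∃ V : Fin 4 → EuclideanSpace ℝ (Fin N),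
      (∀ l m, dist (V l) (V m) = dist (kitePt a l) (kitePt a m)) ∧ ∀ l m, c (V l) = c (V m) := by
    intro c
    obtain ⟨i, -, hd, hinv⟩ := hP c
    obtain ⟨γ, w, h1, h2⟩ := exists_mono k C.M C.edges (fun g w => c (i ⟨g, w⟩))
      (fun g g' w => by
        have e : ∀ h : C.S.G, c (i ⟨h, w⟩) = c (i ⟨1, w⟩) := fun h => by
          have := hinv h ⟨1, w⟩
          rwa [show h • (⟨1, w⟩ : Orbit C.S k) = ⟨h, w⟩ from
            congrArg (Orbit.mk · w) (mul_one h)] at this
        rw [e g, e g'])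
      univ (by simp) (fun _ _ => mem_univ _)
    refine ⟨fun l => i ⟨γ l, w l⟩, fun l m => ?_, h2⟩
    rw [hd]
    refine (pow_left_inj₀ dist_nonneg dist_nonneg two_ne_zero).mp ?_
    rw [dist_kitePt]
    exact (dist_toR _ _).trans (h1 l m)
  have hne : dist (kitePt a 0) (kitePt a 1) ≠ 0 := fun h => by
    have h2 := dist_kitePt a 0 1
    rw [h] at h2
    norm_num [vert] at h2
  have hN : 1 ≤ N := by
    by_contra hN
    obtain rfl : N = 0 := by omega
    obtain ⟨V, hV, -⟩ := key fun _ => ⟨0, by omega⟩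
    exact hne (by rw [← hV, Subsingleton.elim (V 0) (V 1), dist_self])
  have hinj : Function.Injective (kitePt a) := by
    intro l m h
    have h2 := dist_kitePt a l m
    rw [h, dist_self, zero_pow two_ne_zero, eq_comm, map_eq_zero, sub_eq_zero] at h2
    have h3 := congrArg Complex.re h2
    have h4 := congrArg Complex.im h2
    revert h3 h4
    fin_cases l <;> fin_cases m <;> simp [vert, ← hb] <;> intros <;> linarith
  refine ⟨N, hN, fun c => ?_⟩
  obtain ⟨V, hV, hc⟩ := key c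
  refine ⟨Function.extend (kitePt a) V fun _ => 0, fun p hp q hq => ?_, fun p hp q hq => ?_⟩ <;>
    obtain ⟨l, rfl⟩ := mem_kite.mp hp <;> obtain ⟨m, rfl⟩ := mem_kite.mp hq <;>
    rw [hinj.extend_apply, hinj.extend_apply]
  · exact hV l m
  · exact hc l m

end Vale.Agent.P058.Kite
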