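import Vale.Agent.P058.Kite.SymDefs

/-!
The kite with a transcendental parameter is not subtransitive.
-/

namespace Vale.Agent.P058.Kite

open Matrix Polynomial

section Kernel

variable {G : Type} [Group G] [Fintype G] [DecidableEq G]

/-- The matrix of right translation by `g`. -/
def tra (R : Type) [CommRing R] (g : G) : Matrix G G R :=
  Matrix.of fun h k => if k = h * g then 1 else 0

/-- The kite equation with parameter `t`. -/
def eqn (R : Type) [CommRing R] (p q r : G) (t : R) : Matrix G G R :=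
  tra R p + tra R q - tra R 1 - tra R r - t • (tra R 1 - tra R r)

/-- Sum over a subgroup acting on the right. -/
def avg (R : Type) [CommRing R] (H : Finset G) : Matrix G G R :=
  ∑ k ∈ H, tra R k

/-- The positive semidefinite matrix whose determinant detects exceptional parameters. -/
def gram (R : Type) [CommRing R] (p q r : G) (H : Finset G) (t : R) : Matrix G G R :=
  (eqn R p q r t)ᵀ * eqn R p q r t + (avg R H)ᵀ * avg R H

lemma tra_map {R S : Type} [CommRing R] [CommRing S] (φ : R →+* S) (g : G) :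
    φ.mapMatrix (tra R g) = tra S g := by
  ext h k
  simp [tra, apply_ite φ]

lemma gram_map {R S : Type} [CommRing R] [CommRing S] (φ : R →+* S) (p q r : G) (H : Finset G)
    (t : R) : φ.mapMatrix (gram R p q r H t) = gram S p q r H (φ t) := by
  have hT : ∀ M : Matrix G G R, φ.mapMatrix Mᵀ = (φ.mapMatrix M)ᵀ := fun M => by
    ext i j; simp
  have hs : ∀ M : Matrix G G R, φ.mapMatrix (t • M) = φ t • φ.mapMatrix M := fun M => by
    ext i j; simp
  simp only [gram, eqn, avg, map_add, map_sub, map_mul, map_sum, hT, hs, tra_map]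

lemma tra_mulVec (g : G) (v : G → ℝ) (h : G) : (tra ℝ g *ᵥ v) h = v (h * g) := by
  simp [tra, mulVec, dotProduct]

lemma eqn_mulVec (p q r : G) (t : ℝ) (v : G → ℝ) (h : G) :
    (eqn ℝ p q r t *ᵥ v) h
      = v (h * p) + v (h * q) - v h - v (h * r) - t * (v h - v (h * r)) := by
  simp [eqn, add_mulVec, sub_mulVec, smul_mulVec, tra_mulVec]

lemma avg_mulVec (H : Finset G) (v : G → ℝ) (h : G) :
    (avg ℝ H *ᵥ v) h = ∑ k ∈ H, v (h * k) := by
  simp [avg, sum_mulVec, tra_mulVec, Finset.sum_apply]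

/-- At the parameter `2` only functions invariant under the three translations solve the
equation. -/
lemma eqn_two {p q r : G} {v : G → ℝ} (hv : eqn ℝ p q r 2 *ᵥ v = 0) (h : G) :
    v (h * p) = v h ∧ v (h * q) = v h ∧ v (h * r) = v h := by
  have e : ∀ h, v (h * p) + v (h * q) = 3 * v h - v (h * r) := by
    intro h
    have := congrFun hv h
    rw [eqn_mulVec] at this
    simp only [Pi.zero_apply] at this
    linarith
  have hs : ∀ g : G, ∑ h, v (h * g) ^ 2 = ∑ h, v h ^ 2 := fun g =>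
    Fintype.sum_equiv (Equiv.mulRight g) _ _ (fun _ => rfl)
  have hid : ∀ h, 3 * (v h - v (h * r)) ^ 2 + (v (h * p) - v (h * q)) ^ 2
      = 2 * v (h * p) ^ 2 + 2 * v (h * q) ^ 2 + 2 * v (h * r) ^ 2 - 6 * v h ^ 2 := by
    intro h
    have h3 : v (h * r) = 3 * v h - v (h * p) - v (h * q) := by linarith [e h]
    rw [h3]; ring
  have h0 : ∑ h, (3 * (v h - v (h * r)) ^ 2 + (v (h * p) - v (h * q)) ^ 2) = 0 := by
    rw [Finset.sum_congr rfl (fun h _ => hid h)]
    simp only [Finset.sum_sub_distrib, Finset.sum_add_distrib, ← Finset.mul_sum, hs]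
    ring
  have h1 := (Finset.sum_eq_zero_iff_of_nonneg (fun h _ => by positivity)).1 h0 h
    (Finset.mem_univ h)
  have ha : v h = v (h * r) := by
    nlinarith [sq_nonneg (v h - v (h * r)), sq_nonneg (v (h * p) - v (h * q))]
  have hb : v (h * p) = v (h * q) := by
    nlinarith [sq_nonneg (v h - v (h * r)), sq_nonneg (v (h * p) - v (h * q))]
  have := e h
  refine ⟨?_, ?_, ha.symm⟩ <;> linarith

/-- A solution of the equation with transcendental parameter is invariant under `r`. -/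
lemma eqn_invariant {p q r : G} {a : ℝ} (ha : Transcendental ℚ a) {F : G → ℝ}
    (hF : eqn ℝ p q r a *ᵥ F = 0) : ∀ h, F (h * r) = F h := by
  classical
  set K : Subgroup G := Subgroup.closure {p, q, r} with hK
  set H : Finset G := Finset.univ.filter (· ∈ K) with hH
  have hmem : ∀ k, k ∈ H ↔ k ∈ K := fun k => by simp [hH]
  set n : ℝ := (H.card : ℝ) with hn
  have hn0 : n ≠ 0 := by
    have : 1 ∈ H := (hmem 1).2 K.one_mem
    simpa [hn] using Finset.card_ne_zero.2 ⟨1, this⟩
  -- sums over the subgroup are invariant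
  have hinv : ∀ (v : G → ℝ) (h : G) (g : G), g ∈ K →
      (avg ℝ H *ᵥ v) (h * g) = (avg ℝ H *ᵥ v) h := by
    intro v h g hg
    rw [avg_mulVec, avg_mulVec]
    refine Finset.sum_nbij' (fun k => g * k) (fun k => g⁻¹ * k) ?_ ?_ ?_ ?_ ?_
    · intro k hk
      exact (hmem _).2 (K.mul_mem hg ((hmem _).1 hk))
    · intro k hk
      exact (hmem _).2 (K.mul_mem (K.inv_mem hg) ((hmem _).1 hk))
    · intro k _; simp
    · intro k _; simp
    · intro k _; simp [mul_assoc]
  have hfix : ∀ (v : G → ℝ), (∀ h, ∀ g ∈ K, v (h * g) = v h) →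
      avg ℝ H *ᵥ v = n • v := by
    intro v hv
    funext h
    rw [avg_mulVec, Finset.sum_congr rfl (fun k hk => hv h k ((hmem k).1 hk))]
    simp [hn]
  have hp : p ∈ K := Subgroup.subset_closure (by simp)
  have hq : q ∈ K := Subgroup.subset_closure (by simp)
  have hr : r ∈ K := Subgroup.subset_closure (by simp)
  have hkill : ∀ t : ℝ, ∀ v : G → ℝ, (∀ h, ∀ g ∈ K, v (h * g) = v h) →
      eqn ℝ p q r t *ᵥ v = 0 := by
    intro t v hv
    funext h
    rw [eqn_mulVec, hv h p hp, hv h q hq, hv h r hr]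
    simp
  -- the determinant is nonzero at 2, hence at the transcendental parameter
  have hdet2 : (gram ℝ p q r H 2).det ≠ 0 := by
    intro hz
    obtain ⟨v, hv0, hv⟩ := exists_mulVec_eq_zero_iff.2 hz
    apply hv0
    have h2 : v ⬝ᵥ (gram ℝ p q r H 2 *ᵥ v) = 0 := by simp [hv]
    rw [gram, add_mulVec, dotProduct_add, ← mulVec_mulVec, ← mulVec_mulVec,
      dotProduct_mulVec, dotProduct_mulVec _ (avg ℝ H)ᵀ, vecMul_transpose, vecMul_transpose] at h2
    have hnn : ∀ w : G → ℝ, 0 ≤ w ⬝ᵥ w := fun w =>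
      Finset.sum_nonneg fun i _ => mul_self_nonneg _
    have hM : eqn ℝ p q r 2 *ᵥ v = 0 :=
      dotProduct_self_eq_zero.1 (le_antisymm (by linarith [hnn (avg ℝ H *ᵥ v)]) (hnn _))
    have hE : avg ℝ H *ᵥ v = 0 :=
      dotProduct_self_eq_zero.1 (le_antisymm (by linarith [hnn (eqn ℝ p q r 2 *ᵥ v)]) (hnn _))
    have hvK : ∀ h, ∀ g ∈ K, v (h * g) = v h := by
      intro h g hg
      induction hg using Subgroup.closure_induction generalizing h with
      | mem x hx =>
        obtain ⟨e1, e2, e3⟩ := eqn_two hM h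
        simp only [Set.mem_insert_iff, Set.mem_singleton_iff] at hx
        rcases hx with rfl | rfl | rfl <;> assumption
      | one => simp
      | mul x y _ _ hx hy => rw [← mul_assoc, hy, hx]
      | inv x _ hx =>
        have := hx (h * x⁻¹)
        rw [inv_mul_cancel_right] at this
        exact this.symm
    have := hfix v hvK
    rw [hE] at this
    exact (smul_eq_zero.1 this.symm).resolve_left hn0
  set d : ℚ[X] := (gram ℚ[X] p q r H X).det with hd
  have heval : ∀ t : ℝ, aeval t d = (gram ℝ p q r H t).det := by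
    intro t
    rw [hd, ← AlgHom.coe_toRingHom, RingHom.map_det, gram_map]
    simp
  have hd0 : d ≠ 0 := by
    intro h
    have := heval 2
    rw [h, map_zero] at this
    exact hdet2 this.symm
  have hdeta : (gram ℝ p q r H a).det ≠ 0 := by
    rw [← heval a]
    exact fun h => hd0 (transcendental_iff.1 ha d h)
  set SF : G → ℝ := avg ℝ H *ᵥ F with hSF
  have hu : gram ℝ p q r H a *ᵥ (n • F - SF) = 0 := by
    have h1 : eqn ℝ p q r a *ᵥ (n • F - SF) = 0 := by
      rw [mulVec_sub, mulVec_smul, hF, hkill a SF (fun h g hg => hinv F h g hg)]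
      simp
    have h2 : avg ℝ H *ᵥ (n • F - SF) = 0 := by
      rw [mulVec_sub, mulVec_smul, ← hSF, hfix SF (fun h g hg => hinv F h g hg), sub_self]
    rw [gram, add_mulVec, ← mulVec_mulVec, ← mulVec_mulVec, h1, h2]
    simp
  have hzero : n • F - SF = 0 := by
    by_contra hne
    exact hdeta (exists_mulVec_eq_zero_iff.1 ⟨_, hne, hu⟩)
  intro h
  have e1 := congrFun hzero (h * r)
  have e2 := congrFun hzero h
  simp only [Pi.sub_apply, Pi.smul_apply, Pi.zero_apply, smul_eq_mul] at e1 e2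
  rw [hSF, hinv F h r hr, ← hSF] at e1
  exact mul_left_cancel₀ hn0 (by linarith)

end Kernel

section Space

variable {n : ℕ}

/-- Isometries respect the kite relation. -/
lemma isometry_rel (g : EuclideanSpace ℝ (Fin n) ≃ᵢ EuclideanSpace ℝ (Fin n))
    {y0 y1 y2 y3 : EuclideanSpace ℝ (Fin n)} {a : ℝ}
    (h : y2 + y3 - y0 - y1 = a • (y0 - y1)) :
    g y2 + g y3 - g y0 - g y1 = a • (g y0 - g y1) := by
  set e := g.toRealAffineIsometryEquiv with he
  have hlin : ∀ x y, e.linearIsometryEquiv (x - y) = g x - g y := by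
    intro x y
    have := e.map_vsub x y
    simpa [he] using this
  have h' : (y2 - y0) + (y3 - y1) = a • (y0 - y1) := by rw [← h]; abel
  have := congrArg e.linearIsometryEquiv h'
  rw [map_add, map_smul, hlin, hlin, hlin] at this
  rw [← this]; abel

lemma rel_of_dist {a : ℝ} {y0 y1 y2 y3 : EuclideanSpace ℝ (Fin n)}
    (h01 : dist y0 y1 ^ 2 = 4) (h20 : dist y2 y0 ^ 2 = 2 - 2 * a)
    (h30 : dist y3 y0 ^ 2 = 2 - 2 * a) (h21 : dist y2 y1 ^ 2 = 2 + 2 * a)
    (h31 : dist y3 y1 ^ 2 = 2 + 2 * a) (h23 : dist y2 y3 ^ 2 = 4 * (1 - a ^ 2)) :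
    y2 + y3 - y0 - y1 = a • (y0 - y1) := by
  set u := y2 - y1 with hu
  set v := y3 - y1 with hv
  set w := y0 - y1 with hw
  rw [dist_eq_norm] at h01 h20 h30 h21 h31 h23
  rw [← hw] at h01
  rw [← hu] at h21
  rw [← hv] at h31
  rw [show y2 - y0 = u - w by simp [hu, hw]] at h20
  rw [show y3 - y0 = v - w by simp [hv, hw]] at h30
  rw [show y2 - y3 = u - v by simp [hu, hv]] at h23
  rw [norm_sub_sq_real] at h20 h30 h23
  have h0 : ‖u + v - (1 + a) • w‖ ^ 2 = 0 := by
    rw [norm_sub_sq_real, norm_add_sq_real, inner_add_left, real_inner_smul_right,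
      real_inner_smul_right, norm_smul, mul_pow, Real.norm_eq_abs, sq_abs]
    have e1 : (inner ℝ u w : ℝ) = 2 + 2 * a := by linarith
    have e2 : (inner ℝ v w : ℝ) = 2 + 2 * a := by linarith
    have e3 : (inner ℝ u v : ℝ) = 2 * a + 2 * a ^ 2 := by linarith
    rw [e1, e2, e3, h01, h21, h31]
    ring
  have h1 : u + v - (1 + a) • w = 0 := by simpa using h0
  have : y2 + y3 - y0 - y1 - a • w = 0 := by
    rw [← h1, hu, hv, hw]; module
  exact sub_eq_zero.1 this

/-- Permutations of `X` induced by isometries of the space. -/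
def symGroup (X : Finset (EuclideanSpace ℝ (Fin n))) :
    Subgroup (Equiv.Perm {x // x ∈ X}) where
  carrier := {π | ∃ g : EuclideanSpace ℝ (Fin n) ≃ᵢ EuclideanSpace ℝ (Fin n),
    ∀ x : {x // x ∈ X}, g x.1 = (π x).1}
  one_mem' := ⟨1, fun _ => rfl⟩
  mul_mem' := by
    rintro π σ ⟨g, hg⟩ ⟨g', hg'⟩
    refine ⟨g * g', fun x => ?_⟩
    rw [IsometryEquiv.mul_apply, hg', hg]
    rfl
  inv_mem' := by
    rintro π ⟨g, hg⟩
    refine ⟨g⁻¹, fun x => g.injective ?_⟩
    rw [IsometryEquiv.apply_inv_self, hg]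
    simp

lemma exists_symGroup {X : Finset (EuclideanSpace ℝ (Fin n))} (hX : IsTransitiveSet X)
    (x y : {x // x ∈ X}) : ∃ π : symGroup X, (π : Equiv.Perm {x // x ∈ X}) x = y := by
  obtain ⟨g, hgX, hg⟩ := hX x x.2 y y.2
  have hiff : ∀ z, z ∈ X ↔ g z ∈ X := by
    intro z
    constructor
    · intro hz
      have : g z ∈ g '' (X : Set (EuclideanSpace ℝ (Fin n))) := ⟨z, hz, rfl⟩
      rwa [hgX] at this
    · intro hz
      have : g z ∈ g '' (X : Set (EuclideanSpace ℝ (Fin n))) := by rw [hgX]; exact hz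
      exact (g.injective.mem_set_image).1 this
  refine ⟨⟨g.toEquiv.subtypeEquiv hiff, g, fun z => rfl⟩, Subtype.ext ?_⟩
  simpa using hg

end Space

/-- The kite with a transcendental parameter is not subtransitive. -/
theorem notSubtransitive : NotSubtransitiveTarget := by
  intro a ha ha1 ha2 ⟨n, X, hX, f, hfX, hf⟩
  classical
  set b := Real.sqrt (1 - a ^ 2) with hb
  have hbb : b ^ 2 = 1 - a ^ 2 := Real.sq_sqrt (by nlinarith)
  set x0 : EuclideanSpace ℝ (Fin 2) := !₂[1, 0] with hx0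
  set x1 : EuclideanSpace ℝ (Fin 2) := !₂[-1, 0] with hx1
  set x2 : EuclideanSpace ℝ (Fin 2) := !₂[a, b] with hx2
  set x3 : EuclideanSpace ℝ (Fin 2) := !₂[a, -b] with hx3
  have m0 : x0 ∈ kite a := by simp [kite, hx0]
  have m1 : x1 ∈ kite a := by simp [kite, hx1]
  have m2 : x2 ∈ kite a := by simp [kite, hx2, hb]
  have m3 : x3 ∈ kite a := by simp [kite, hx3, hb]
  have hd : ∀ p q r s : ℝ, dist (!₂[p, q] : EuclideanSpace ℝ (Fin 2)) !₂[r, s] ^ 2
      = (p - r) ^ 2 + (q - s) ^ 2 := by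
    intro p q r s
    rw [EuclideanSpace.dist_sq_eq, Fin.sum_univ_two]
    simp [Real.dist_eq, sq_abs]
  set Y0 : {x // x ∈ X} := ⟨f x0, hfX _ m0⟩ with hY0
  have hrel : f x2 + f x3 - f x0 - f x1 = a • (f x0 - f x1) := by
    refine rel_of_dist ?_ ?_ ?_ ?_ ?_ ?_
    · rw [hf _ m0 _ m1, hd]; norm_num
    · rw [hf _ m2 _ m0, hd]; nlinarith
    · rw [hf _ m3 _ m0, hd]; nlinarith
    · rw [hf _ m2 _ m1, hd]; nlinarith
    · rw [hf _ m3 _ m1, hd]; nlinarith
    · rw [hf _ m2 _ m3, hd]; nlinarith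
  obtain ⟨p, hp⟩ := exists_symGroup hX Y0 ⟨f x2, hfX _ m2⟩
  obtain ⟨q, hq⟩ := exists_symGroup hX Y0 ⟨f x3, hfX _ m3⟩
  obtain ⟨r, hr⟩ := exists_symGroup hX Y0 ⟨f x1, hfX _ m1⟩
  let : Fintype (symGroup X) := Fintype.ofFinite _
  have key : ∀ j, (f x1) j = (f x0) j := by
    intro j
    set F : symGroup X → ℝ :=
      fun h => ((h : Equiv.Perm {x // x ∈ X}) Y0 : EuclideanSpace ℝ (Fin n)) j with hF
    have hker : eqn ℝ p q r a *ᵥ F = 0 := by
      funext h
      obtain ⟨g, hg⟩ := h.2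
      have := congrArg (fun z : EuclideanSpace ℝ (Fin n) => z j) (isometry_rel g hrel)
      simp only [eqn_mulVec, hF, Subgroup.coe_mul, Equiv.Perm.coe_mul, Function.comp_apply, hp,
        hq, hr, Pi.zero_apply]
      rw [← hg ⟨f x2, hfX _ m2⟩, ← hg ⟨f x3, hfX _ m3⟩, ← hg ⟨f x1, hfX _ m1⟩, ← hg Y0]
      simp only [hY0, PiLp.sub_apply, PiLp.add_apply, PiLp.smul_apply, smul_eq_mul] at this ⊢
      linarith
    have := eqn_invariant ha hker 1
    simp only [hF, one_mul, Subgroup.coe_one, Equiv.Perm.coe_one, id_eq] at this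
    rw [hr] at this
    simpa [hY0] using this
  have he : f x1 = f x0 := by ext j; exact key j
  have h2 : dist x1 x0 ^ 2 = 0 := by
    rw [← hf _ m1 _ m0, he]; simp
  rw [hd] at h2
  norm_num at h2

/-- There is a transcendental parameter strictly between `-1` and `1`. -/
theorem exists_transcendental : ∃ a : ℝ, Transcendental ℚ a ∧ -1 < a ∧ a < 1 := by
  by_contra h
  push Not at h
  have hsub : Set.Ioo (-1 : ℝ) 1 ⊆ {x | IsAlgebraic ℚ x} := by
    intro x hx
    by_contra hx'
    exact absurd (h x hx' hx.1) (not_le.2 hx.2)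
  have h0 := ((Algebraic.countable ℚ ℝ).mono hsub).measure_zero MeasureTheory.volume
  rw [Real.volume_Ioo] at h0
  norm_num at h0

end Vale.Agent.P058.Kite
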