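import Vale.Agent.P058.Kite.Columns

/-!
Configurations of every depth with arbitrarily small defect.
-/

namespace Vale.Agent.P058.Kite

open Finset

/-- At every node and for every choice of one leaf below each child, the group moves the four
leaves onto a congruent copy of the kite. -/
def Edges (S : Sys) (a b : ℝ) : ∀ r : ℕ, ((Fin r → Fin 4) → S.ι → ℂ) → Prop
  | 0, _ => True
  | r + 1, M =>
    (∀ β : Fin 4 → Fin r → Fin 4, ∃ γ : Fin 4 → S.G, ∀ l m,
        qn (S.act (γ l) (M (Fin.cons l (β l))) - S.act (γ m) (M (Fin.cons m (β m))))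
          = Complex.normSq (vert a b l - vert a b m)) ∧
      ∀ l, Edges S a b r fun w => M (Fin.cons l w)

lemma Edges.map {S T : Sys} {a b : ℝ} (Φ : (S.ι → ℂ) → T.ι → ℂ) (φ : S.G → T.G)
    (hd : ∀ g h v w, qn (T.act (φ g) (Φ v) - T.act (φ h) (Φ w)) = qn (S.act g v - S.act h w)) :
    ∀ r (M : (Fin r → Fin 4) → S.ι → ℂ), Edges S a b r M → Edges T a b r fun w => Φ (M w)
  | 0, _, _ => trivial
  | r + 1, M, h => by
    refine ⟨fun β => ?_, fun l => Edges.map Φ φ hd r _ (h.2 l)⟩
    obtain ⟨γ, hγ⟩ := h.1 β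
    exact ⟨φ ∘ γ, fun l m => (hd _ _ _ _).trans (hγ l m)⟩

/-- A configuration of depth `r` with defect at most `ε`. -/
structure Cfg (a b : ℝ) (r : ℕ) (ε : ℝ) where
  S : Sys
  M : (Fin r → Fin 4) → S.ι → ℂ
  ref : S.ι → ℂ
  qM : ∀ w, qn (M w) = qn ref
  near : ∀ w, S.Near (M w) ref ε
  small : qn (S.pm ref) ≤ ε
  edges : Edges S a b r M

lemma isPGroup_labels (r : ℕ) : IsPGroup 2 (Multiplicative (Fin r → Fin 4)) :=
  isPGroup_of_card (n := 2 * r) <| by
    rw [Nat.card_congr Multiplicative.toAdd, Nat.card_fun, Nat.card_fin, Nat.card_fin, pow_mul]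
    norm_num

/-- The three rotations used by the static copies. -/
def rot : Fin 3 → ℂ := ![-1, Complex.I, -Complex.I]

lemma normSq_rot (k : Fin 3) : Complex.normSq (rot k) = 1 := by fin_cases k <;> simp [rot]

section build

variable {a b : ℝ} {r : ℕ} (S : Sys) (SF : Sys)

/-- The labels of the leaves below one child. -/
abbrev Lab (r : ℕ) := Multiplicative (Fin r → Fin 4)

/-- The moving slots. -/
noncomputable def slotSys (r : ℕ) : Sys := (S.wreath (Lab r) (isPGroup_labels r)).pow (Fin 4)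

/-- The static copies. -/
noncomputable def statSys (r : ℕ) : Sys := S.pow (Fin 4 × Lab r × Fin 3)

/-- The system one level up. -/
noncomputable def nextSys (r : ℕ) : Sys := (((slotSys S r).sum (statSys S r)).sum SF).sum signSys

/-- A vector of the next system from its parts. -/
noncomputable def pack (s : Fin 4 → Lab r → S.ι → ℂ) (t : Fin 4 × Lab r × Fin 3 → S.ι → ℂ)
    (f : SF.ι → ℂ) (x : ℝ) : (nextSys S SF r).ι → ℂ :=
  Sum.elim (Sum.elim (Sum.elim (fun p : Fin 4 × Lab r × S.ι => s p.1 p.2.1 p.2.2)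
    (fun p : (Fin 4 × Lab r × Fin 3) × S.ι => t p.1 p.2)) f) (fun _ : Unit => (x : ℂ))

lemma qn_pack (s : Fin 4 → Lab r → S.ι → ℂ) (t : Fin 4 × Lab r × Fin 3 → S.ι → ℂ)
    (f : SF.ι → ℂ) (x : ℝ) :
    qn (pack S SF s t f x) = (∑ l, ∑ q, qn (s l q)) + (∑ j, qn (t j)) + qn f + x ^ 2 := by
  have h0 : qn (ι := signSys.ι) (fun _ => (x : ℂ)) = x ^ 2 := by
    refine (Fintype.sum_unique (ι := Unit) _).trans ?_
    simp [pow_two]
  have h1 : qn (ι := (slotSys S r).ι) (fun p : Fin 4 × Lab r × S.ι => s p.1 p.2.1 p.2.2)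
      = ∑ l, ∑ q, qn (s l q) :=
    (qn_prod (J := Fin 4) _).trans (sum_congr rfl fun l _ => qn_prod (J := Lab r) _)
  have h2 : qn (ι := (statSys S r).ι) (fun p : (Fin 4 × Lab r × Fin 3) × S.ι => t p.1 p.2)
      = ∑ j, qn (t j) := qn_prod _
  rw [← h0, ← h1, ← h2]
  refine (qn_sum (κ := ((slotSys S r).ι ⊕ (statSys S r).ι) ⊕ SF.ι) (ι := signSys.ι) _).trans ?_
  congr 1
  refine (qn_sum (κ := (slotSys S r).ι ⊕ (statSys S r).ι) (ι := SF.ι) _).trans ?_
  congr 1
  exact qn_sum (κ := (slotSys S r).ι) (ι := (statSys S r).ι) _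

lemma pack_sub (s s' : Fin 4 → Lab r → S.ι → ℂ) (t t' : Fin 4 × Lab r × Fin 3 → S.ι → ℂ)
    (f f' : SF.ι → ℂ) (x x' : ℝ) :
    pack S SF s t f x - pack S SF s' t' f' x'
      = pack S SF (fun l q => s l q - s' l q) (fun j => t j - t' j) (f - f') (x - x') := by
  funext p
  rcases p with ((p | p) | p) | p
  · rfl
  · rfl
  · rfl
  · exact (Complex.ofReal_sub x x').symm

/-- A group element that acts on the slots only. -/
noncomputable def slotElt (g : Fin 4 → S.G ≀ᵣ Lab r) : (nextSys S SF r).G :=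
  (((g, fun _ => 1), 1), 1)

lemma act_pack (g : Fin 4 → S.G ≀ᵣ Lab r) (s : Fin 4 → Lab r → S.ι → ℂ)
    (t : Fin 4 × Lab r × Fin 3 → S.ι → ℂ) (f : SF.ι → ℂ) (x : ℝ) :
    (nextSys S SF r).act (slotElt S SF g) (pack S SF s t f x)
      = pack S SF (fun l q => S.act ((g l).left q) (s l ((g l).right⁻¹ * q))) t f x := by
  funext p
  rcases p with ((p | p) | p) | p
  · rfl
  · show S.act 1 (t p.1) p.2 = t p.1 p.2
    simp
  · show SF.act 1 f p = f p
    simp
  · show signSys.act 1 (fun _ => (x : ℂ)) p = x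
    simp

lemma near_pack {s s' : Fin 4 → Lab r → S.ι → ℂ} {t t' : Fin 4 × Lab r × Fin 3 → S.ι → ℂ}
    {f f' : SF.ι → ℂ} {x x' : ℝ} {δ η : ℝ} (hs : ∀ l q, S.Near (s l q) (s' l q) δ)
    (ht : ∀ j, S.Near (t j) (t' j) δ) (hf : SF.Near f f' η) :
    (nextSys S SF r).Near (pack S SF s t f x) (pack S SF s' t' f' x')
      ((∑ _l : Fin 4, ∑ _q : Lab r, δ) + (∑ _j : Fin 4 × Lab r × Fin 3, δ) + η + x ^ 2) := by
  have h1 : ∀ y : ℝ, signSys.pp (fun _ => (y : ℂ)) = fun _ => 0 := by
    intro y
    funext i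
    show (1 / 2 : ℝ) • ((y : ℂ) + (((-1 : ℤˣ) : ℤ) : ℝ) • (y : ℂ)) = 0
    simp
  have hx : signSys.Near (fun _ => (x : ℂ)) (fun _ => (x' : ℂ)) (x ^ 2) := by
    refine signSys.near_self _ _ ((h1 x).trans (h1 x').symm) ((signSys.qn_pm_le _).trans_eq ?_)
    refine (Fintype.sum_unique (ι := Unit) _).trans ?_
    simp [pow_two]
  refine Sys.sum_near _ _ (Sys.sum_near _ _ (Sys.sum_near _ _ ?_ ?_) hf) hx
  · exact Sys.pow_near _ fun l => Sys.wreath_near _ fun q => hs l q
  · exact Sys.pow_near _ ht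

lemma small_pack {s : Fin 4 → Lab r → S.ι → ℂ} {t : Fin 4 × Lab r × Fin 3 → S.ι → ℂ}
    {f : SF.ι → ℂ} {x : ℝ} (hs : ∀ l q, S.pm (s l q) = 0) (ht : ∀ j, S.pm (t j) = 0) :
    qn ((nextSys S SF r).pm (pack S SF s t f x)) ≤ qn (SF.pm f) + x ^ 2 := by
  have h1 : (nextSys S SF r).pm (pack S SF s t f x) = Sum.elim (Sum.elim (Sum.elim
      (fun _ => 0) (fun _ => 0)) (SF.pm f)) (signSys.pm fun _ => (x : ℂ)) := by
    funext p
    rcases p with ((p | p) | p) | p
    · exact (congrFun (Sys.wreath_pm S (Lab r) (isPGroup_labels r)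
        (fun z : Lab r × S.ι => s p.1 z.1 z.2) p.2.1) p.2.2).trans (congrFun (hs _ _) _)
    · exact congrFun (ht p.1) p.2
    · rfl
    · rfl
  rw [h1]
  have hq : qn (signSys.pm fun _ => (x : ℂ)) ≤ x ^ 2 :=
    (signSys.qn_pm_le _).trans_eq ((Fintype.sum_unique (ι := Unit) _).trans (by simp [pow_two]))
  refine le_of_eq_of_le (qn_sum (κ := ((slotSys S r).ι ⊕ (statSys S r).ι) ⊕ SF.ι)
    (ι := signSys.ι) _) (add_le_add (le_of_eq ?_) hq)
  refine (qn_sum (κ := (slotSys S r).ι ⊕ (statSys S r).ι) (ι := SF.ι) _).trans ?_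
  refine (congrArg (· + qn (SF.pm f)) ?_).trans (zero_add _)
  refine (qn_sum (κ := (slotSys S r).ι) (ι := (statSys S r).ι) _).trans ?_
  simp [qn]

end build

/-- The next depth. -/
theorem Cfg.next {a b : ℝ} (ha : a ≠ 1) (ha' : a ≠ -1) (hb : b ≠ 0) (hab : a ^ 2 + b ^ 2 = 1)
    (r : ℕ) (H : ∀ ε : ℝ, 0 < ε → Nonempty (Cfg a b r ε)) {ε : ℝ} (hε : 0 < ε) :
    Nonempty (Cfg a b (r + 1) ε) := by
  obtain ⟨SF, hSF⟩ := exists_filler hab (ε := ε / 4) (by linarith)
  set N : ℝ := (Fintype.card (Fin 4 × Lab r) : ℝ) with hN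
  have hN0 : 0 < N := by rw [hN]; exact_mod_cast Fintype.card_pos (α := Fin 4 × Lab r)
  set K : ℝ := 24 * coBound a b + 8 with hK
  have hK0 : 0 < K := by linarith [coBound_nonneg a b]
  set δ : ℝ := min ε 1 / (16 * N * K) with hδ
  have hδ0 : 0 < δ := div_pos (lt_min hε one_pos) (by positivity)
  have hNKδ : 16 * (N * K * δ) = min ε 1 := by rw [hδ]; field_simp
  obtain ⟨C⟩ := H δ hδ0
  set S := C.S
  set u := C.ref
  choose γ hγ1 hγ2 using C.near
  let u' : Lab r → S.ι → ℂ := fun q => S.act (γ q.toAdd) (C.M q.toAdd)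
  have hpair : ∀ q, S.Pair u (u' q) δ := fun q =>
    ⟨hγ1 q.toAdd, (S.qact _ _).trans (C.qM _), C.small⟩
  let col : Fin 4 → Lab r → ℂ → S.ι → ℂ := fun l q z => S.col a b u (u' q) l z
  let colS : Fin 4 → Lab r → ℂ → S.ι → ℂ := fun l q z => S.colS a b u (u' q) l z
  let e : ℝ := ∑ j : Fin 4 × Lab r, S.colScale a b u (u' j.2) j.1
  have he0 : e ≤ 1 := by
    have : e ≤ ∑ _j : Fin 4 × Lab r, K * δ := sum_le_sum fun j _ =>
      (Sys.colScale_le (hpair j.2) j.1).trans
        (mul_le_mul_of_nonneg_right (by linarith [coBound_nonneg a b]) hδ0.le)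
    rw [sum_const, card_univ, nsmul_eq_mul] at this
    linarith [min_le_right ε 1, hNKδ, mul_assoc N K δ, lt_min hε one_pos]
  have he' : 0 ≤ e := sum_nonneg fun j _ =>
    mul_nonneg zero_le_two (add_nonneg (qn_nonneg _) (qn_nonneg _))
  obtain ⟨F, refF, hFd, hFn, hFnear, hFsmall⟩ := hSF e he0
  have hmax : max (1 - e) 0 * (ε / 4) ≤ ε / 4 :=
    mul_le_of_le_one_left (by linarith) (max_le (by linarith) zero_le_one)
  -- the leaves
  let stat : Fin 4 → Fin 4 × Lab r × Fin 3 → S.ι → ℂ := fun c j =>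
    col j.1 j.2.1 (rot j.2.2 * vert a b c)
  let slot : Fin 4 → (S.ι → ℂ) → Fin 4 → Lab r → S.ι → ℂ := fun c v l q =>
    if l = c then (if q = 1 then v else u) else col l q (vert a b c)
  let Φ : Fin 4 → (S.ι → ℂ) → (nextSys S SF r).ι → ℂ := fun c v =>
    pack S SF (slot c v) (stat c) (F c) 0
  let M' : (Fin (r + 1) → Fin 4) → (nextSys S SF r).ι → ℂ := fun w =>
    Φ (w 0) (C.M (Fin.tail w))
  let E : ℝ := ∑ j : Fin 4 × Lab r,
    (4 * qn (S.col0 a b u (u' j.2) j.1) + S.colScale a b u (u' j.2) j.1 - 4 * qn (S.pp u))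
  have hvn : ∀ c, Complex.normSq (vert a b c) = 1 := normSq_vert hab
  have hblock : ∀ c (j : Fin 4 × Lab r),
      qn (col j.1 j.2 (vert a b c)) + ∑ k, qn (col j.1 j.2 (rot k * vert a b c))
        = 4 * qn (S.col0 a b u (u' j.2) j.1) + S.colScale a b u (u' j.2) j.1 := fun c j => by
    simp only [col]
    rw [← S.col_four a b u (u' j.2) j.1 (hvn c)]
    simp [Fin.sum_univ_three, rot]
  have hcol : ∀ l q z, Complex.normSq z = 1 →
      qn (S.pp u) ≤ qn (col l q z) ∧ qn (col l q z) ≤ qn (S.pp u) + K * δ := by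
    intro l q z hz
    have h1 := S.qn_pp_pm (col l q z)
    have h2 : S.pp (col l q z) = S.pp u := S.pp_split _ _ _ _ _
    have h3 := Sys.col_small (a := a) (b := b) (hpair q) l hz
    rw [h2] at h1
    have h4 : 6 * coBound a b * δ ≤ K * δ :=
      mul_le_mul_of_nonneg_right (by linarith [coBound_nonneg a b]) hδ0.le
    exact ⟨by linarith [qn_nonneg (S.pm (col l q z))], by linarith⟩
  have hrot : ∀ k c, Complex.normSq (rot k * vert a b c) = 1 := fun k c => by
    rw [Complex.normSq_mul, normSq_rot, hvn, one_mul]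
  have hE : 0 ≤ E ∧ E ≤ ε / 4 := by
    have hj : ∀ j : Fin 4 × Lab r,
        0 ≤ 4 * qn (S.col0 a b u (u' j.2) j.1) + S.colScale a b u (u' j.2) j.1 - 4 * qn (S.pp u) ∧
        4 * qn (S.col0 a b u (u' j.2) j.1) + S.colScale a b u (u' j.2) j.1 - 4 * qn (S.pp u)
          ≤ 4 * (K * δ) := by
      intro j
      rw [← hblock 0 j, Fin.sum_univ_three]
      have h0 := hcol j.1 j.2 _ (hvn 0)
      have hk := fun k => hcol j.1 j.2 _ (hrot k 0)
      constructor <;> linarith [h0.1, h0.2, (hk 0).1, (hk 0).2, (hk 1).1, (hk 1).2, (hk 2).1,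
        (hk 2).2]
    refine ⟨sum_nonneg fun j _ => (hj j).1, ?_⟩
    have : E ≤ ∑ _j : Fin 4 × Lab r, 4 * (K * δ) := sum_le_sum fun j _ => (hj j).2
    rw [sum_const, card_univ, nsmul_eq_mul] at this
    linarith [min_le_left ε 1, hNKδ, mul_assoc N K δ]
  let ref' : (nextSys S SF r).ι → ℂ :=
    pack S SF (fun _ _ => S.pp u) (fun _ => S.pp u) refF (Real.sqrt E)
  refine ⟨⟨nextSys S SF r, M', ref', fun w => ?_, fun w => ?_, ?_, ?_⟩⟩
  · -- norms
    set c := w 0
    set v := C.M (Fin.tail w)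
    show qn (pack S SF (slot c v) (stat c) (F c) 0) = qn ref'
    have hs : ∀ l q, qn (slot c v l q) = qn (col l q (vert a b c)) := by
      intro l q
      by_cases hl : l = c
      · subst hl
        have : qn (col c q (vert a b c)) = qn u :=
          congrArg qn (Sys.col_self (u := u) (u' := u' q) ha ha' hb c)
        simp only [slot, if_true]
        split
        · rw [this]; exact C.qM _
        · exact this.symm
      · simp only [slot, if_neg hl]
    rw [qn_pack, qn_pack, hFn, Real.sq_sqrt hE.1]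
    simp only [hs, stat]
    have hsum : ∑ l, ∑ q, qn (col l q (vert a b c))
        + ∑ j : Fin 4 × Lab r × Fin 3, qn (col j.1 j.2.1 (rot j.2.2 * vert a b c))
        = ∑ j : Fin 4 × Lab r, (4 * qn (S.col0 a b u (u' j.2) j.1)
            + S.colScale a b u (u' j.2) j.1) := by
      simp only [← hblock c, sum_add_distrib, Fintype.sum_prod_type]
    simp only [E, sum_sub_distrib, sum_const, card_univ, Fintype.card_prod, Fintype.card_fin,
      nsmul_eq_mul] at hsum ⊢
    push_cast at hsum ⊢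
    linarith
  · -- near
    set c := w 0
    set v := C.M (Fin.tail w)
    have hu : S.Near u (S.pp u) (K * δ) :=
      (S.near_self u (S.pp u) (S.pp_pp u).symm C.small).mono
        (le_mul_of_one_le_left hδ0.le (by linarith [coBound_nonneg a b]))
    have hcolnear : ∀ l q z, Complex.normSq z = 1 → S.Near (col l q z) (S.pp u) (K * δ) :=
      fun l q z hz => S.near_self _ _ ((S.pp_split _ _ _ _ _).trans (S.pp_pp u).symm)
        ((Sys.col_small (hpair q) l hz).trans
          (mul_le_mul_of_nonneg_right (by linarith [coBound_nonneg a b]) hδ0.le))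
    have hs : ∀ l q, S.Near (slot c v l q) (S.pp u) (K * δ) := by
      intro l q
      simp only [slot]
      split_ifs
      · refine Sys.Near.mono ?_ (le_mul_of_one_le_left hδ0.le
          (by linarith [coBound_nonneg a b]) : δ ≤ K * δ)
        exact ⟨γ _, (hγ1 _).trans (S.pp_pp u).symm, hγ2 _⟩
      · exact hu
      · exact hcolnear l q _ (hvn c)
    refine Sys.Near.mono (near_pack S SF hs (fun j => hcolnear _ _ _ (hrot _ _))
      ((hFnear c).mono hmax)) ?_
    simp only [sum_const, card_univ, Fintype.card_prod, Fintype.card_fin, nsmul_eq_mul]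
    simp only [hN, Fintype.card_prod, Fintype.card_fin] at hNKδ
    push_cast at hNKδ ⊢
    nlinarith [min_le_left ε 1]
  · -- the reference is nearly fixed
    refine (small_pack S SF (fun _ _ => S.pm_pp u) (fun _ => S.pm_pp u)).trans ?_
    rw [Real.sq_sqrt hE.1]
    linarith [hE.2]
  · -- congruent copies
    refine ⟨fun β => ?_, fun c => ?_⟩
    · let g : Fin 4 → Fin 4 → S.G ≀ᵣ Lab r := fun c l =>
        if l = c then ⟨Function.update 1 (Multiplicative.ofAdd (β c)) (γ (β c)),
          Multiplicative.ofAdd (β c)⟩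
        else ⟨Function.update 1 (Multiplicative.ofAdd (β l)) (if c = partner l then S.ν else 1), 1⟩
      refine ⟨fun c => slotElt S SF (g c), fun c c' => ?_⟩
      let sw : Fin 4 → Fin 4 → Lab r → S.ι → ℂ := fun c l q =>
        if q = Multiplicative.ofAdd (β l) then colS l q (vert a b c) else col l q (vert a b c)
      have hmove : ∀ c, (nextSys S SF r).act (slotElt S SF (g c)) (M' (Fin.cons c (β c)))
          = pack S SF (sw c) (stat c) (F c) 0 := by
        intro c
        show (nextSys S SF r).act (slotElt S SF (g c))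
          (Φ (Fin.cons (α := fun _ => Fin 4) c (β c) 0)
            (C.M (Fin.tail (Fin.cons (α := fun _ => Fin 4) c (β c))))) = _
        rw [Fin.cons_zero, Fin.tail_cons, act_pack]
        congr 1
        funext l q
        by_cases hl : l = c
        · subst hl
          simp only [g, slot, sw, if_true]
          by_cases hq : q = Multiplicative.ofAdd (β l)
          · subst hq
            rw [Function.update_self, inv_mul_cancel, if_pos rfl, if_pos rfl]
            exact (Sys.colS_self (hpair _) ha ha' hb l).symm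
          · rw [Function.update_of_ne hq, if_neg hq, if_neg (fun h => hq (inv_mul_eq_one.mp h).symm)]
            simpa using (Sys.col_self (u := u) (u' := u' q) ha ha' hb l).symm
        · simp only [g, slot, sw, if_neg hl, inv_one, one_mul]
          by_cases hq : q = Multiplicative.ofAdd (β l)
          · subst hq
            rw [Function.update_self, if_pos rfl]
            split_ifs with hp
            · rw [hp]; exact Sys.colS_partner ha ha' hb l
            · simpa using Sys.colS_other ha ha' hb (Ne.symm hl) hp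
          · rw [Function.update_of_ne hq, if_neg hq]
            simp
      rw [hmove, hmove, pack_sub, qn_pack, sub_self, hFd]
      have hsw : ∀ l q, qn (sw c l q - sw c' l q)
          = qn (col l q (vert a b c) - col l q (vert a b c')) := by
        intro l q
        simp only [sw]
        split_ifs
        · exact Sys.colS_dist (hpair q) l _ _
        · rfl
      simp only [hsw, stat]
      have h4 : ∀ j : Fin 4 × Lab r,
          qn (col j.1 j.2 (vert a b c) - col j.1 j.2 (vert a b c'))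
            + ∑ k, qn (col j.1 j.2 (rot k * vert a b c) - col j.1 j.2 (rot k * vert a b c'))
          = Complex.normSq (vert a b c - vert a b c') * S.colScale a b u (u' j.2) j.1 := by
        intro j
        simp only [col]
        rw [← S.col_four_sub a b u (u' j.2) j.1 (vert a b c) (vert a b c')]
        simp [Fin.sum_univ_three, rot]
      have hsum := Fintype.sum_congr _ _ h4
      rw [← mul_sum] at hsum
      simp only [sum_add_distrib, Fintype.sum_prod_type] at hsum ⊢
      have he : e = ∑ l, ∑ q, S.colScale a b u (u' q) l := Fintype.sum_prod_type _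
      rw [← he] at hsum
      linarith
    · have hM : (fun w => M' (Fin.cons c w)) = fun w => Φ c (C.M w) := by
        funext w
        simp [M']
      rw [hM]
      refine Edges.map (Φ c) (fun g => slotElt S SF fun l =>
        if l = c then ⟨Function.update 1 1 g, 1⟩ else 1) (fun g h v w => ?_) r C.M C.edges
      rw [act_pack, act_pack, pack_sub, qn_pack, sub_self, sub_self]
      simp only [sub_self, show qn (0 : SF.ι → ℂ) = 0 by simp [qn],
        show qn (0 : S.ι → ℂ) = 0 by simp [qn], sum_const_zero, add_zero, ne_eq, OfNat.ofNat_ne_zero,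
        not_false_eq_true, zero_pow]
      rw [sum_eq_single c, sum_eq_single (1 : Lab r)]
      · simp [slot]
      · intro q _ hq
        simp [slot, hq, qn]
      · simp
      · intro l _ hl
        simp [slot, hl, qn]
      · simp

/-- Configurations exist in every depth, with any defect. -/
theorem exists_cfg {a b : ℝ} (ha : a ≠ 1) (ha' : a ≠ -1) (hb : b ≠ 0) (hab : a ^ 2 + b ^ 2 = 1) :
    ∀ (r : ℕ) {ε : ℝ}, 0 < ε → Nonempty (Cfg a b r ε)
  | 0, ε, hε => by
    refine ⟨⟨signSys, fun _ => 0, 0, fun _ => rfl, fun _ => ?_, ?_, trivial⟩⟩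
    · exact signSys.near_self 0 0 rfl ((signSys.qn_pm_le 0).trans (by simp [qn, hε.le]))
    · exact (signSys.qn_pm_le 0).trans (by simp [qn, hε.le])
  | r + 1, ε, hε => Cfg.next ha ha' hb hab r (fun η hη => exists_cfg ha ha' hb hab r hη) hε

end Vale.Agent.P058.Kite
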