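import Vale.Agent.P058.Kite.SymDefs

/-!
Symmetrisation of colourings by finite 2-groups, by induction on the order of the group.
-/

namespace Vale.Agent.P058.Kite

open Function

variable {A B : Type}

/-- A finite witness realising the squared distances `D` with colours invariant along `R`. -/
def Wit (D : A → A → ℝ) (R : A → A → Prop) : Prop :=
  ∀ r : ℕ, ∃ (N : ℕ) (P : Finset (EuclideanSpace ℝ (Fin N))),
    ∀ C : EuclideanSpace ℝ (Fin N) → Fin r, ∃ i : A → EuclideanSpace ℝ (Fin N),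
      (∀ a, i a ∈ P) ∧ (∀ a a', dist (i a) (i a') ^ 2 = D a a') ∧
        ∀ a a', R a a' → C (i a) = C (i a')

lemma Wit.colours {D : A → A → ℝ} {R : A → A → Prop} (h : Wit D R) (κ : Type) [Finite κ] :
    ∃ (N : ℕ) (P : Finset (EuclideanSpace ℝ (Fin N))),
      ∀ C : EuclideanSpace ℝ (Fin N) → κ, ∃ i : A → EuclideanSpace ℝ (Fin N),
        (∀ a, i a ∈ P) ∧ (∀ a a', dist (i a) (i a') ^ 2 = D a a') ∧
          ∀ a a', R a a' → C (i a) = C (i a') := by
  obtain ⟨N, P, hP⟩ := h (Nat.card κ)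
  refine ⟨N, P, fun C => ?_⟩
  obtain ⟨i, h1, h2, h3⟩ := hP (Finite.equivFin κ ∘ C)
  exact ⟨i, h1, h2, fun a a' ha => (Finite.equivFin κ).injective (h3 a a' ha)⟩

lemma Wit.pullback {D : B → B → ℝ} {R : B → B → Prop} (h : Wit D R) {D' : A → A → ℝ}
    {R' : A → A → Prop} (φ : A → B) (hD : ∀ a a', D (φ a) (φ a') = D' a a')
    (hR : ∀ a a', R' a a' → R (φ a) (φ a')) : Wit D' R' := by
  intro r
  obtain ⟨N, P, hP⟩ := h r
  refine ⟨N, P, fun C => ?_⟩
  obtain ⟨i, h1, h2, h3⟩ := hP C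
  exact ⟨i ∘ φ, fun a => h1 _, fun a a' => (h2 _ _).trans (hD a a'),
    fun a a' ha => h3 _ _ (hR a a' ha)⟩

lemma Wit.scale {D : A → A → ℝ} {R : A → A → Prop} (h : Wit D R) {c : ℝ} (hc : 0 ≤ c) :
    Wit (fun a a' => c * D a a') R := by
  classical
  intro r
  obtain ⟨N, P, hP⟩ := h r
  refine ⟨N, P.image (Real.sqrt c • ·), fun C => ?_⟩
  obtain ⟨i, h1, h2, h3⟩ := hP (C ∘ (Real.sqrt c • ·))
  exact ⟨fun a => Real.sqrt c • i a, fun a => Finset.mem_image_of_mem _ (h1 a),
    fun a a' => by rw [dist_smul₀, mul_pow, Real.norm_eq_abs, sq_abs, Real.sq_sqrt hc, h2],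
    h3⟩

/-- Concatenation of coordinates. -/
def join {m n : ℕ} (x : EuclideanSpace ℝ (Fin m)) (y : EuclideanSpace ℝ (Fin n)) :
    EuclideanSpace ℝ (Fin (m + n)) :=
  WithLp.toLp 2 (Fin.append x.ofLp y.ofLp)

lemma dist_join {m n : ℕ} (x x' : EuclideanSpace ℝ (Fin m)) (y y' : EuclideanSpace ℝ (Fin n)) :
    dist (join x y) (join x' y') ^ 2 = dist x x' ^ 2 + dist y y' ^ 2 := by
  simp [join, EuclideanSpace.dist_sq_eq, Fin.sum_univ_add]

lemma Wit.prod [Finite B] {D : A → A → ℝ} {R : A → A → Prop} {D' : B → B → ℝ}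
    {R' : B → B → Prop} (hA : Wit D R) (hB : Wit D' R') :
    Wit (fun x y : A × B => D x.1 y.1 + D' x.2 y.2)
      (fun x y => R x.1 y.1 ∧ x.2 = y.2 ∨ x.1 = y.1 ∧ R' x.2 y.2) := by
  classical
  intro r
  obtain ⟨N1, P1, h1⟩ := hA.colours (B → Fin r)
  obtain ⟨N2, P2, h2⟩ := hB.colours (P1 → Fin r)
  refine ⟨N1 + N2, (P1 ×ˢ P2).image fun p => join p.1 p.2, fun C => ?_⟩
  obtain ⟨i2, m2, d2, c2⟩ := h2 fun y p => C (join p.1 y)
  obtain ⟨i1, m1, d1, c1⟩ := h1 fun x b => C (join x (i2 b))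
  refine ⟨fun x => join (i1 x.1) (i2 x.2),
    fun x => Finset.mem_image.2 ⟨(i1 x.1, i2 x.2), Finset.mem_product.2 ⟨m1 _, m2 _⟩, rfl⟩,
    fun x y => by rw [dist_join, d1, d2], ?_⟩
  rintro ⟨a, b⟩ ⟨a', b'⟩ (⟨ha, hb⟩ | ⟨ha, hb⟩)
  · cases hb
    exact congrFun (c1 a a' ha) b
  · cases ha
    exact congrFun (c2 b b' hb) ⟨i1 a, m1 a⟩

/-- Two tuples differ in one place, and there along `R`. -/
def Step {q : ℕ} (R : A → A → Prop) (x y : Fin q → A) : Prop :=
  ∃ k, (∀ j, j ≠ k → x j = y j) ∧ R (x k) (y k)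

lemma Wit.pow [Finite A] {D : A → A → ℝ} {R : A → A → Prop} (h : Wit D R) (q : ℕ) :
    Wit (fun x y : Fin q → A => ∑ k, D (x k) (y k)) (Step R) := by
  induction q with
  | zero => exact fun r => ⟨0, {0}, fun C => ⟨fun _ => 0, by simp, by simp, fun _ _ _ => rfl⟩⟩
  | succ q ih =>
    refine (h.prod ih).pullback (fun x => (x 0, fun k => x k.succ))
      (fun x y => (Fin.sum_univ_succ fun k => D (x k) (y k)).symm) ?_
    rintro x y ⟨k, hk, hR⟩
    rcases Fin.eq_zero_or_eq_succ k with rfl | ⟨k, rfl⟩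
    · exact Or.inl ⟨hR, funext fun j => hk _ (Fin.succ_ne_zero j)⟩
    · exact Or.inr ⟨hk _ (Fin.succ_ne_zero k).symm,
        k, fun j hj => hk _ fun e => hj (Fin.succ_injective _ e), hR⟩

/-- Orbits of `K` everywhere, orbits of `G` on `S`. -/
def Orb {G : Type} [Group G] [MulAction G A] (K : Subgroup G) (S : Finset A) (a a' : A) : Prop :=
  (∃ g ∈ K, g • a = a') ∨ a ∈ S ∧ ∃ g : G, g • a = a'

open Classical in
lemma Wit.enlarge [Finite A] {G : Type} [Group G] [MulAction G A] {K : Subgroup G}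
    (hK : K.index = 2) {σ : G} (hσ : σ ∉ K) {D : A → A → ℝ}
    (hinv : ∀ (g : G) a a', D (g • a) (g • a') = D a a') (hself : ∀ a, D a a = 0)
    {S : Finset A} (h : Wit D (Orb K S)) (p : A) : Wit D (Orb K (insert p S)) := by
  intro r
  obtain ⟨N, P, hP⟩ := ((h.pow (r + 1)).scale (c := 1 / 2) (by norm_num)) r
  refine ⟨N, P, fun C => ?_⟩
  obtain ⟨j, hmem, hdist, hstep⟩ := hP C
  let w : Fin (r + 1) → Fin (r + 1) → A := fun k => update (fun _ => p) k (σ • p)
  obtain ⟨a, b, hab, hcol⟩ :=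
    Fintype.exists_ne_map_eq_of_card_lt (fun k => C (j (w k))) (by simp)
  let φ : A → Fin (r + 1) → A := fun f => update (update (fun _ => p) b f) a (σ • f)
  let Sim : A → A → Prop := fun u v => ∀ (x : Fin (r + 1) → A) k,
    C (j (update x k u)) = C (j (update x k v))
  have hRS : ∀ u v, Orb K S u v → Sim u v := fun u v huv x k =>
    hstep _ _ ⟨k, fun i hi => by simp [update_of_ne hi], by simpa using huv⟩
  have hsK : ∀ g ∈ K, ∀ u, Sim u (g • u) := fun g hg u => hRS _ _ (Or.inl ⟨g, hg, rfl⟩)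
  have hφ : ∀ f f', Sim f f' → Sim (σ • f) (σ • f') → C (j (φ f)) = C (j (φ f')) := by
    intro f f' h1 h2
    refine (h2 _ a).trans ?_
    show C (j (update (update _ b f) a (σ • f'))) = C (j (update (update _ b f') a (σ • f')))
    rw [update_comm hab.symm, update_comm hab.symm]
    exact h1 _ b
  have hmem2 : ∀ x y : G, x * y ∈ K ↔ (x ∈ K ↔ y ∈ K) := fun x y =>
    Subgroup.mul_mem_iff_of_index_two hK
  have hD : ∀ g ∈ K, ∀ f, C (j (φ f)) = C (j (φ (g • f))) := by
    intro g hg f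
    refine hφ _ _ (hsK g hg f) ?_
    have e : (σ * g * σ⁻¹) • σ • f = σ • g • f := by simp [← mul_smul, mul_assoc]
    rw [← e]
    exact hsK _ (by simp [hmem2, hσ, hg]) _
  refine ⟨fun f => j (φ f), fun f => hmem _, fun f f' => ?_, ?_⟩
  · rw [hdist]
    have e : ∀ k, D (φ f k) (φ f' k) =
        (if k = a then D f f' else 0) + (if k = b then D f f' else 0) := by
      intro k
      by_cases ha : k = a
      · subst ha
        simp [φ, hinv, hab]
      · by_cases hb : k = b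
        · subst hb
          simp [φ, ha]
        · simp [φ, ha, hb, hself]
    simp [e, Finset.sum_add_distrib]
    ring
  · rintro f f' (⟨g, hg, rfl⟩ | ⟨hf, g, rfl⟩)
    · exact hD g hg f
    rcases Finset.mem_insert.1 hf with rfl | hfS
    · have key : C (j (φ f)) = C (j (φ (σ • f))) := by
        have h1 : φ f = w a := by simp [φ, w]
        have h2 : C (j (φ (σ • f))) = C (j (w b)) := by
          have := hsK (σ * σ) (by simp [hmem2]) f (update (fun _ => f) b (σ • f)) a
          rw [mul_smul] at this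
          refine this.symm.trans (congrArg (fun x => C (j x)) ?_)
          simp [w, update_comm hab.symm]
        rw [h1, h2]
        exact hcol
      by_cases hg : g ∈ K
      · exact hD g hg f
      · rw [key, hD (g * σ⁻¹) (by simp [hmem2, hg, hσ]) (σ • f), ← mul_smul, inv_mul_cancel_right]
    · have hs : ∀ k : G, Sim f (k • f) := fun k => hRS _ _ (Or.inr ⟨hfS, k, rfl⟩)
      refine hφ _ _ (hs g) fun x k => ?_
      rw [smul_smul]
      exact (hs σ x k).symm.trans (hs (σ * g) x k)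

lemma wit_orbits [Finite A] {D : A → A → ℝ} (hbase : Wit D fun _ _ => False)
    (hself : ∀ a, D a a = 0) (m : ℕ) :
    ∀ (G : Type) [Group G] [MulAction G A], Nat.card G = 2 ^ m →
      (∀ (g : G) a a', D (g • a) (g • a') = D a a') →
      Wit D fun a a' => ∃ g : G, g • a = a' := by
  classical
  have := Fintype.ofFinite A
  induction m with
  | zero =>
    intro G _ _ hG _ r
    obtain ⟨N, P, hP⟩ := hbase r
    refine ⟨N, P, fun C => ?_⟩
    obtain ⟨i, h1, h2, -⟩ := hP C
    refine ⟨i, h1, h2, ?_⟩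
    rintro a _ ⟨g, rfl⟩
    have := (Nat.card_eq_one_iff_unique.1 (by simpa using hG)).1
    simp [Subsingleton.elim g 1]
  | succ m ih =>
    intro G _ _ hG hinv
    have : Finite G := Nat.finite_of_card_ne_zero (by simp [hG])
    have : Fact (Nat.Prime 2) := ⟨Nat.prime_two⟩
    obtain ⟨K, hK⟩ := Sylow.exists_subgroup_card_pow_prime (G := G) 2 (n := m)
      (by rw [hG]; exact pow_dvd_pow 2 (by omega))
    have hidx : K.index = 2 := by
      have := K.index_mul_card
      rw [hK, hG, pow_succ'] at this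
      exact Nat.eq_of_mul_eq_mul_right (by positivity) this
    obtain ⟨σ, hσ⟩ : ∃ σ, σ ∉ K := by
      by_contra hc
      push Not at hc
      simp [(Subgroup.eq_top_iff' K).2 hc] at hidx
    have h0 : Wit D (Orb K (∅ : Finset A)) :=
      (ih K hK fun g => hinv g).pullback id (fun _ _ => rfl) fun a a' h => by
        obtain ⟨g, hg, e⟩ | ⟨h, -⟩ := h
        · exact ⟨⟨g, hg⟩, e⟩
        · simp at h
    have hall : ∀ S : Finset A, Wit D (Orb K S) := fun S =>
      S.induction_on h0 fun p _ _ h => h.enlarge hidx hσ hinv hself p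
    exact (hall Finset.univ).pullback id (fun _ _ => rfl)
      fun a a' h => Or.inr ⟨Finset.mem_univ a, h⟩

/-- Every colouring has an isometric copy of `F` whose colour is invariant under the group. -/
theorem symmetrisation : SymmetrisationTarget := by
  intro G F _ _ _ _ _ hG hiso he r
  classical
  obtain ⟨n, e, he⟩ := he
  obtain ⟨m, hm⟩ := IsPGroup.iff_card.1 hG
  have := Fintype.ofFinite F
  have hbase : Wit (fun f f' : F => dist f f' ^ 2) fun _ _ => False := fun r =>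
    ⟨n, Finset.univ.image e, fun C => ⟨e, fun f => by simp, fun f f' => by rw [he], by simp⟩⟩
  obtain ⟨N, P, hP⟩ := wit_orbits hbase (by simp) m G hm (fun g f f' => by rw [hiso]) r
  refine ⟨N, P, fun C => ?_⟩
  obtain ⟨i, h1, h2, h3⟩ := hP C
  exact ⟨i, h1, fun f f' => (sq_eq_sq₀ dist_nonneg dist_nonneg).1 (h2 f f'),
    fun g f => (h3 f _ ⟨g, rfl⟩).symm⟩

end Vale.Agent.P058.Kite
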