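import Mathlib

/-!
Finite 2-groups acting on `ι → ℂ` with a marked involution, and operations on them.
-/

namespace Vale.Agent.P058.Kite

open Finset

/-- The squared norm of a vector of complex numbers. -/
noncomputable def qn {ι : Type} [Fintype ι] (v : ι → ℂ) : ℝ := ∑ i, Complex.normSq (v i)

lemma qn_nonneg {ι : Type} [Fintype ι] (v : ι → ℂ) : 0 ≤ qn v :=
  sum_nonneg fun i _ => Complex.normSq_nonneg _

lemma qn_prod {J ι : Type} [Fintype J] [Fintype ι] (v : J × ι → ℂ) :
    qn v = ∑ j, qn fun i => v (j, i) := Fintype.sum_prod_type _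

lemma qn_sum {κ ι : Type} [Fintype κ] [Fintype ι] (v : κ ⊕ ι → ℂ) :
    qn v = qn (v ∘ Sum.inl) + qn (v ∘ Sum.inr) := Fintype.sum_sum_type _

lemma isPGroup_of_card {G : Type} [Group G] {n : ℕ} (h : Nat.card G = 2 ^ n) : IsPGroup 2 G :=
  IsPGroup.of_card h

lemma exists_card {G : Type} [Group G] [Finite G] (h : IsPGroup 2 G) :
    ∃ n : ℕ, Nat.card G = 2 ^ n := IsPGroup.iff_card.mp h

lemma isPGroup_prod {G H : Type} [Group G] [Group H] [Finite G] [Finite H]
    (hG : IsPGroup 2 G) (hH : IsPGroup 2 H) : IsPGroup 2 (G × H) := by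
  obtain ⟨a, ha⟩ := exists_card hG
  obtain ⟨b, hb⟩ := exists_card hH
  exact isPGroup_of_card (n := a + b) (by rw [Nat.card_prod, ha, hb, pow_add])

lemma isPGroup_pi {G J : Type} [Group G] [Finite G] [Finite J]
    (hG : IsPGroup 2 G) : IsPGroup 2 (J → G) := by
  obtain ⟨a, ha⟩ := exists_card hG
  exact isPGroup_of_card (n := a * Nat.card J) (by rw [Nat.card_fun, ha, pow_mul])

lemma isPGroup_wreath {G Q : Type} [Group G] [Group Q] [Finite G] [Finite Q]
    (hG : IsPGroup 2 G) (hQ : IsPGroup 2 Q) : IsPGroup 2 (G ≀ᵣ Q) := by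
  obtain ⟨a, ha⟩ := exists_card hG
  obtain ⟨b, hb⟩ := exists_card hQ
  refine isPGroup_of_card (n := a * Nat.card Q + b) ?_
  rw [RegularWreathProduct.card, pow_add, pow_mul, ha, hb]

/-- A finite 2-group of linear isometries of `ι → ℂ` with a marked involution. -/
structure Sys where
  ι : Type
  [fι : Fintype ι]
  G : Type
  [grp : Group G]
  [fin : Finite G]
  isP : IsPGroup 2 G
  act : G →* Module.End ℝ (ι → ℂ)
  qact : ∀ g v, qn (act g v) = qn v
  ν : G
  νν : ν * ν = 1

attribute [instance] Sys.fι Sys.grp Sys.fin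

namespace Sys

variable (S : Sys)

/-- The fixed part of the marked involution. -/
noncomputable def pp (v : S.ι → ℂ) : S.ι → ℂ := (1 / 2 : ℝ) • (v + S.act S.ν v)

/-- The antifixed part of the marked involution. -/
noncomputable def pm (v : S.ι → ℂ) : S.ι → ℂ := (1 / 2 : ℝ) • (v - S.act S.ν v)

lemma act_act (g h : S.G) (v : S.ι → ℂ) : S.act g (S.act h v) = S.act (g * h) v := by
  rw [map_mul]; rfl

lemma ν_ν (v : S.ι → ℂ) : S.act S.ν (S.act S.ν v) = v := by
  rw [act_act, S.νν, map_one]; rfl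

lemma act_pp (v : S.ι → ℂ) : S.act S.ν (S.pp v) = S.pp v := by
  rw [pp, map_smul, map_add, ν_ν, add_comm]

lemma act_pm (v : S.ι → ℂ) : S.act S.ν (S.pm v) = -S.pm v := by
  rw [pm, map_smul, map_sub, ν_ν, ← smul_neg, neg_sub]

lemma pp_add_pm (v : S.ι → ℂ) : S.pp v + S.pm v = v := by
  rw [pp, pm, ← smul_add]
  module

lemma qn_pp_pm (v : S.ι → ℂ) : qn (S.pp v) + qn (S.pm v) = qn v := by
  have h : qn (S.pp v) + qn (S.pm v) = (1 / 2) * (qn v + qn (S.act S.ν v)) := by
    simp only [qn, pp, pm, ← sum_add_distrib, mul_sum, mul_add]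
    refine sum_congr rfl fun i _ => ?_
    simp only [Pi.smul_apply, Pi.add_apply, Pi.sub_apply, Complex.real_smul, Complex.normSq_mul,
      Complex.normSq_ofReal, Complex.normSq_add, Complex.normSq_sub]
    ring
  rw [h, S.qact]; ring

lemma qn_pm_le (v : S.ι → ℂ) : qn (S.pm v) ≤ qn v := by
  linarith [S.qn_pp_pm v, qn_nonneg (S.pp v)]

/-- `v` can be moved by the group to a vector with the fixed part of `w` and a small
antifixed part. -/
def Near (v w : S.ι → ℂ) (ε : ℝ) : Prop :=
  ∃ γ, S.pp (S.act γ v) = S.pp w ∧ qn (S.pm (S.act γ v)) ≤ ε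

lemma Near.mono {S : Sys} {v w : S.ι → ℂ} {ε ε' : ℝ} (h : S.Near v w ε) (he : ε ≤ ε') : S.Near v w ε' :=
  ⟨h.choose, h.choose_spec.1, h.choose_spec.2.trans he⟩

lemma near_self (v w : S.ι → ℂ) {ε : ℝ} (h : S.pp v = S.pp w) (he : qn (S.pm v) ≤ ε) :
    S.Near v w ε := ⟨1, by simpa using h, by simpa using he⟩

/-- Independent copies. -/
noncomputable def pow (J : Type) [Fintype J] : Sys where
  ι := J × S.ι
  G := J → S.G
  isP := isPGroup_pi S.isP
  act :=
    { toFun := fun g =>
        { toFun := fun v p => S.act (g p.1) (fun i => v (p.1, i)) p.2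
          map_add' := fun u v => funext fun p => by
            exact congrFun (map_add (S.act (g p.1)) (fun i => u (p.1, i)) fun i => v (p.1, i)) p.2
          map_smul' := fun c v => funext fun p => by
            exact congrFun (map_smul (S.act (g p.1)) c fun i => v (p.1, i)) p.2 }
      map_one' := LinearMap.ext fun v => funext fun p => by simp
      map_mul' := fun g h => LinearMap.ext fun v => funext fun p => by simp }
  qact g v := by
    rw [qn_prod, qn_prod]
    exact sum_congr rfl fun j _ => S.qact (g j) fun i => v (j, i)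
  ν := fun _ => S.ν
  νν := funext fun _ => S.νν

/-- The component of a vector of copies. -/
def comp {J : Type} {S : Sys} (v : J × S.ι → ℂ) (j : J) : S.ι → ℂ := fun i => v (j, i)

lemma pow_pp (J : Type) [Fintype J] (v : J × S.ι → ℂ) (j : J) :
    comp ((S.pow J).pp v) j = S.pp (comp v j) := rfl

lemma pow_pm (J : Type) [Fintype J] (v : J × S.ι → ℂ) (j : J) :
    comp ((S.pow J).pm v) j = S.pm (comp v j) := rfl

lemma pow_near {J : Type} [Fintype J] {v w : J × S.ι → ℂ} {ε : J → ℝ}
    (h : ∀ j, S.Near (comp v j) (comp w j) (ε j)) : (S.pow J).Near v w (∑ j, ε j) := by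
  choose γ h1 h2 using h
  refine ⟨γ, funext fun p => ?_, ?_⟩
  · exact congrFun (h1 p.1) p.2
  · refine le_of_eq_of_le (qn_prod (J := J) (ι := S.ι) _) (sum_le_sum fun j _ => ?_)
    exact h2 j

/-- Copies indexed by a group, permuted by that group. -/
noncomputable def wreath (Q : Type) [Group Q] [Fintype Q] (hQ : IsPGroup 2 Q) : Sys where
  ι := Q × S.ι
  G := S.G ≀ᵣ Q
  isP := isPGroup_wreath S.isP hQ
  act :=
    { toFun := fun σ =>
        { toFun := fun v p => S.act (σ.left p.1) (fun i => v (σ.right⁻¹ * p.1, i)) p.2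
          map_add' := fun u v => funext fun p => by
            exact congrFun (map_add (S.act (σ.left p.1)) (fun i => u (σ.right⁻¹ * p.1, i))
              fun i => v (σ.right⁻¹ * p.1, i)) p.2
          map_smul' := fun c v => funext fun p => by
            exact congrFun (map_smul (S.act (σ.left p.1)) c
              fun i => v (σ.right⁻¹ * p.1, i)) p.2 }
      map_one' := LinearMap.ext fun v => funext fun p => by simp
      map_mul' := fun g h => LinearMap.ext fun v => funext fun p => by simp [mul_assoc] }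
  qact σ v := by
    rw [qn_prod, qn_prod]
    refine (sum_congr rfl fun q _ =>
      S.qact (σ.left q) fun i => v (σ.right⁻¹ * q, i)).trans ?_
    exact Equiv.sum_comp (Equiv.mulLeft σ.right⁻¹) fun q => qn fun i => v (q, i)
  ν := ⟨fun _ => S.ν, 1⟩
  νν := by
    ext q
    · simp [S.νν]
    · simp

lemma wreath_act (Q : Type) [Group Q] [Fintype Q] (hQ : IsPGroup 2 Q) (σ : S.G ≀ᵣ Q)
    (v : Q × S.ι → ℂ) (q : Q) :
    comp ((S.wreath Q hQ).act σ v) q = S.act (σ.left q) (comp v (σ.right⁻¹ * q)) := rfl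

lemma wreath_pp (Q : Type) [Group Q] [Fintype Q] (hQ : IsPGroup 2 Q) (v : Q × S.ι → ℂ) (q : Q) :
    comp ((S.wreath Q hQ).pp v) q = S.pp (comp v q) := by
  have h : comp ((S.wreath Q hQ).act (S.wreath Q hQ).ν v) q = S.act S.ν (comp v q) :=
    (S.wreath_act Q hQ _ v q).trans
      (congrArg (fun x => S.act S.ν (comp v x)) (by simp [wreath]))
  funext i
  exact congrArg (fun z : ℂ => (1 / 2 : ℝ) • (v (q, i) + z)) (congrFun h i)

lemma wreath_pm (Q : Type) [Group Q] [Fintype Q] (hQ : IsPGroup 2 Q) (v : Q × S.ι → ℂ) (q : Q) :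
    comp ((S.wreath Q hQ).pm v) q = S.pm (comp v q) := by
  have h : comp ((S.wreath Q hQ).act (S.wreath Q hQ).ν v) q = S.act S.ν (comp v q) :=
    (S.wreath_act Q hQ _ v q).trans
      (congrArg (fun x => S.act S.ν (comp v x)) (by simp [wreath]))
  funext i
  exact congrArg (fun z : ℂ => (1 / 2 : ℝ) • (v (q, i) - z)) (congrFun h i)

lemma wreath_near {Q : Type} [Group Q] [Fintype Q] {hQ : IsPGroup 2 Q} {v w : Q × S.ι → ℂ}
    {ε : Q → ℝ} (h : ∀ q, S.Near (comp v q) (comp w q) (ε q)) :
    (S.wreath Q hQ).Near v w (∑ q, ε q) := by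
  choose γ h1 h2 using h
  have hc : ∀ q, comp ((S.wreath Q hQ).act ⟨γ, 1⟩ v) q = S.act (γ q) (comp v q) := fun q =>
    (S.wreath_act Q hQ _ v q).trans (congrArg (fun x => S.act (γ q) (comp v x)) (by simp))
  refine ⟨⟨γ, 1⟩, funext fun p => ?_, ?_⟩
  · have := congrFun (S.wreath_pp Q hQ ((S.wreath Q hQ).act ⟨γ, 1⟩ v) p.1) p.2
    rw [hc, h1] at this
    exact this.trans (congrFun (S.wreath_pp Q hQ w p.1) p.2).symm
  · refine le_of_eq_of_le (qn_prod (J := Q) (ι := S.ι) _) (sum_le_sum fun q _ => ?_)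
    have := S.wreath_pm Q hQ ((S.wreath Q hQ).act ⟨γ, 1⟩ v) q
    rw [hc] at this
    exact le_of_eq_of_le (congrArg qn this) (h2 q)

variable (T : Sys)

/-- Two systems side by side. -/
noncomputable def sum : Sys where
  ι := S.ι ⊕ T.ι
  G := S.G × T.G
  isP := isPGroup_prod S.isP T.isP
  act :=
    { toFun := fun g =>
        { toFun := fun v => Sum.elim (S.act g.1 (v ∘ Sum.inl)) (T.act g.2 (v ∘ Sum.inr))
          map_add' := fun u v => funext fun p => by
            cases p with
            | inl i => exact congrFun (map_add (S.act g.1) (u ∘ Sum.inl) (v ∘ Sum.inl)) i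
            | inr i => exact congrFun (map_add (T.act g.2) (u ∘ Sum.inr) (v ∘ Sum.inr)) i
          map_smul' := fun c v => funext fun p => by
            cases p with
            | inl i => exact congrFun (map_smul (S.act g.1) c (v ∘ Sum.inl)) i
            | inr i => exact congrFun (map_smul (T.act g.2) c (v ∘ Sum.inr)) i }
      map_one' := LinearMap.ext fun v => funext fun p => by cases p <;> simp
      map_mul' := fun g h => LinearMap.ext fun v => funext fun p => by cases p <;> simp }
  qact g v := by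
    rw [qn_sum, qn_sum]
    exact congrArg₂ (· + ·) (S.qact g.1 (v ∘ Sum.inl)) (T.qact g.2 (v ∘ Sum.inr))
  ν := (S.ν, T.ν)
  νν := Prod.ext S.νν T.νν

lemma sum_pp (v : S.ι ⊕ T.ι → ℂ) :
    (S.sum T).pp v = Sum.elim (S.pp (v ∘ Sum.inl)) (T.pp (v ∘ Sum.inr)) := by
  funext p; cases p <;> rfl

lemma sum_pm (v : S.ι ⊕ T.ι → ℂ) :
    (S.sum T).pm v = Sum.elim (S.pm (v ∘ Sum.inl)) (T.pm (v ∘ Sum.inr)) := by
  funext p; cases p <;> rfl

lemma sum_near {a a' : S.ι → ℂ} {b b' : T.ι → ℂ} {ε δ : ℝ} (h : S.Near a a' ε)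
    (h' : T.Near b b' δ) : (S.sum T).Near (Sum.elim a b) (Sum.elim a' b') (ε + δ) := by
  obtain ⟨g, g1, g2⟩ := h
  obtain ⟨k, k1, k2⟩ := h'
  refine ⟨(g, k), ?_, ?_⟩
  · funext p
    cases p with
    | inl i => exact congrFun g1 i
    | inr i => exact congrFun k1 i
  · refine le_of_eq_of_le (qn_sum (κ := S.ι) (ι := T.ι) _) ?_
    exact add_le_add g2 k2

end Sys

/-- One real sign. -/
noncomputable def signSys : Sys where
  ι := Unit
  G := ℤˣ
  isP := isPGroup_of_card (n := 1) (by simp [Nat.card_eq_fintype_card])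
  act :=
    { toFun := fun u => ((u : ℤ) : ℝ) • LinearMap.id
      map_one' := by simp; rfl
      map_mul' := fun u v => by
        refine LinearMap.ext fun x => funext fun i => ?_
        simp [mul_assoc]; ring }
  qact u v := by
    rcases Int.units_eq_one_or u with h | h <;> subst h <;> simp [qn]
  ν := -1
  νν := by simp

end Vale.Agent.P058.Kite
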